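import Vale.Agent.Lib.P249.Sampling

/-!
Additive-error importance sampling (Maurey's empirical method, derandomised greedily).
-/

namespace Vale.Agent.Lib.P249

open Finset MeasureTheory

/-- abstract first moment principle -/
theorem exists_le_of_dominated {Ω : Type*} [MeasurableSpace Ω] (μ : Measure Ω)
    (F s G : Ω → ℝ) (c : ℝ) (hs0 : ∀ ω, 0 ≤ s ω) (hspos : 0 < ∫ ω, s ω ∂μ)
    (hGi : Integrable G μ) (hGint : ∫ ω, G ω ∂μ ≤ 0)
    (hdom : ∀ ω, 0 < s ω → s ω * (F ω - c) ≤ G ω) (hzero : ∀ ω, s ω = 0 → 0 ≤ G ω) :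
    ∃ ω, 0 < s ω ∧ F ω ≤ c := by
  by_contra hcon
  have hcon' : ∀ ω, 0 < s ω → c < F ω := by
    intro ω hω
    by_contra h
    exact hcon ⟨ω, hω, not_lt.mp h⟩
  have hGF : ∀ ω, 0 < s ω → 0 < G ω := by
    intro ω hω
    have h1 := hcon' ω hω
    have h2 : 0 < s ω * (F ω - c) := mul_pos hω (by linarith)
    linarith [hdom ω hω]
  have hG0 : ∀ ω, 0 ≤ G ω := by
    intro ω
    rcases eq_or_lt_of_le (hs0 ω) with h | h
    · exact hzero ω h.symm
    · exact (hGF ω h).le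
  have hGzero : ∫ ω, G ω ∂μ = 0 := le_antisymm hGint (integral_nonneg hG0)
  have hae : G =ᵐ[μ] 0 := (integral_eq_zero_iff_of_nonneg hG0 hGi).mp hGzero
  have hsae : s =ᵐ[μ] 0 := by
    filter_upwards [hae] with ω hω
    rcases eq_or_lt_of_le (hs0 ω) with h | h
    · exact h.symm
    · have := hGF ω h
      simp only [Pi.zero_apply] at hω
      linarith
  have : ∫ ω, s ω ∂μ = 0 := by
    rw [integral_congr_ae hsae]
    simp
  linarith

lemma exp_le_quadratic {x : ℝ} (hx : |x| ≤ 1) : Real.exp x ≤ 1 + x + x ^ 2 := by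
  have := Real.abs_exp_sub_one_sub_id_le hx
  have := (abs_le.mp this).2
  linarith

/-- first moment principle for centred bounded variables -/
theorem first_moment_add {Ω : Type*} [MeasurableSpace Ω] (μ : Measure Ω) {E : Type*} [Fintype E]
    (h : E → Ω → ℝ) (s : Ω → ℝ) (B θ : ℝ) (hB : 0 < B) (hθ0 : 0 ≤ θ) (hθB : θ * B ≤ 1)
    (hh0 : ∀ e ω, 0 ≤ h e ω) (hhs : ∀ e ω, h e ω ≤ B * s ω)
    (hhi : ∀ e, Integrable (h e) μ)
    (hsi : Integrable s μ) (hs1 : ∫ ω, s ω ∂μ = 1) (hs0 : ∀ ω, 0 ≤ s ω)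
    (α β : E → ℝ) (hα : ∀ e, 0 ≤ α e) (hβ : ∀ e, 0 ≤ β e) :
    ∃ ω, 0 < s ω ∧
      ∑ e, (α e * Real.exp (θ * (h e ω / s ω - ∫ ω', h e ω' ∂μ)) +
        β e * Real.exp (-(θ * (h e ω / s ω - ∫ ω', h e ω' ∂μ)))) ≤
        ∑ e, (α e * Real.exp (θ ^ 2 * B ^ 2) + β e * Real.exp (-(-(θ ^ 2 * B ^ 2)))) := by
  have hI0 : ∀ e, 0 ≤ ∫ ω', h e ω' ∂μ := fun e => integral_nonneg (hh0 e)
  have hIB : ∀ e, ∫ ω', h e ω' ∂μ ≤ B := by
    intro e
    calc ∫ ω', h e ω' ∂μ ≤ ∫ ω', B * s ω' ∂μ := integral_mono (hhi e) (hsi.const_mul _) (hhs e)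
      _ = B := by rw [integral_const_mul, hs1, mul_one]
  apply exists_le_of_dominated μ _ s
    (fun ω => ∑ e, (α e * (s ω * (1 + θ ^ 2 * B ^ 2) + θ * (h e ω - (∫ ω', h e ω' ∂μ) * s ω)) +
      β e * (s ω * (1 + θ ^ 2 * B ^ 2) - θ * (h e ω - (∫ ω', h e ω' ∂μ) * s ω))) -
      (∑ e, (α e * Real.exp (θ ^ 2 * B ^ 2) + β e * Real.exp (-(-(θ ^ 2 * B ^ 2))))) * s ω)
    _ hs0 (by rw [hs1]; norm_num)
  · apply Integrable.sub
    · apply integrable_finsetSum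
      intro e _
      apply Integrable.add
      · exact ((hsi.mul_const _).add (((hhi e).sub (hsi.const_mul _)).const_mul _)).const_mul _
      · exact ((hsi.mul_const _).sub (((hhi e).sub (hsi.const_mul _)).const_mul _)).const_mul _
    · exact hsi.const_mul _
  · have hint1 : ∀ e, Integrable (fun ω => α e * (s ω * (1 + θ ^ 2 * B ^ 2) +
        θ * (h e ω - (∫ ω', h e ω' ∂μ) * s ω))) μ := fun e =>
      ((hsi.mul_const _).add (((hhi e).sub (hsi.const_mul _)).const_mul _)).const_mul _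
    have hint2 : ∀ e, Integrable (fun ω => β e * (s ω * (1 + θ ^ 2 * B ^ 2) -
        θ * (h e ω - (∫ ω', h e ω' ∂μ) * s ω))) μ := fun e =>
      ((hsi.mul_const _).sub (((hhi e).sub (hsi.const_mul _)).const_mul _)).const_mul _
    rw [integral_sub, integral_finsetSum, integral_const_mul, hs1, mul_one,
      ← Finset.sum_sub_distrib]
    · apply Finset.sum_nonpos
      intro e _
      have hs' : Integrable (fun a => s a * (1 + θ ^ 2 * B ^ 2)) μ := hsi.mul_const _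
      have hd : Integrable (fun a => h e a - (∫ ω', h e ω' ∂μ) * s a) μ :=
        (hhi e).sub (hsi.const_mul _)
      have hd' : Integrable (fun a => θ * (h e a - (∫ ω', h e ω' ∂μ) * s a)) μ := hd.const_mul _
      have hd0 : ∫ a, θ * (h e a - (∫ ω', h e ω' ∂μ) * s a) ∂μ = 0 := by
        rw [integral_const_mul, integral_sub (hhi e) (hsi.const_mul _), integral_const_mul, hs1]
        ring
      have hs'1 : ∫ a, s a * (1 + θ ^ 2 * B ^ 2) ∂μ = 1 + θ ^ 2 * B ^ 2 := by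
        rw [integral_mul_const, hs1, one_mul]
      rw [integral_add (hint1 e) (hint2 e), integral_const_mul, integral_const_mul,
        integral_add hs' hd', integral_sub hs' hd', hd0, hs'1]
      have hexp := Real.add_one_le_exp (θ ^ 2 * B ^ 2)
      rw [neg_neg]
      have b1 := mul_le_mul_of_nonneg_left hexp (hα e)
      have b2 := mul_le_mul_of_nonneg_left hexp (hβ e)
      nlinarith
    · intro e _
      exact (hint1 e).add (hint2 e)
    · exact integrable_finsetSum _ fun e _ => (hint1 e).add (hint2 e)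
    · exact hsi.const_mul _
  · intro ω hω
    rw [mul_sub, mul_comm (s ω) (∑ e, (α e * Real.exp (θ ^ 2 * B ^ 2) +
      β e * Real.exp (-(-(θ ^ 2 * B ^ 2)))))]
    apply sub_le_sub_right
    rw [Finset.mul_sum]
    apply Finset.sum_le_sum
    intro e _
    obtain ⟨I, hI⟩ : ∃ I, I = ∫ ω', h e ω' ∂μ := ⟨_, rfl⟩
    rw [← hI]
    have hI0' : 0 ≤ I := hI ▸ hI0 e
    have hIB' : I ≤ B := hI ▸ hIB e
    have hz0 : 0 ≤ h e ω / s ω := div_nonneg (hh0 e ω) hω.le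
    have hzB : h e ω / s ω ≤ B := by
      rw [div_le_iff₀ hω]; exact hhs e ω
    obtain ⟨W, hW⟩ : ∃ W, W = h e ω / s ω - I := ⟨_, rfl⟩
    rw [← hW]
    have hWabs : |W| ≤ B := by
      rw [abs_le, hW]; constructor <;> linarith
    have hθW : |θ * W| ≤ 1 := by
      rw [abs_mul, abs_of_nonneg hθ0]
      exact (mul_le_mul_of_nonneg_left hWabs hθ0).trans hθB
    have hsq : (θ * W) ^ 2 ≤ θ ^ 2 * B ^ 2 := by
      rw [mul_pow]
      apply mul_le_mul_of_nonneg_left _ (sq_nonneg θ)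
      exact sq_le_sq' (by linarith [(abs_le.mp hWabs).1]) (abs_le.mp hWabs).2
    have e1 := exp_le_quadratic hθW
    have e2 := exp_le_quadratic (x := -(θ * W)) (by rwa [abs_neg])
    have hsW : s ω * W = h e ω - I * s ω := by
      rw [hW]; field_simp
    have e1' : s ω * Real.exp (θ * W) ≤
        s ω * (1 + θ ^ 2 * B ^ 2) + θ * (h e ω - I * s ω) := by
      calc s ω * Real.exp (θ * W) ≤ s ω * (1 + θ * W + θ ^ 2 * B ^ 2) :=
            mul_le_mul_of_nonneg_left (by linarith) hω.le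
        _ = s ω * (1 + θ ^ 2 * B ^ 2) + θ * (s ω * W) := by ring
        _ = _ := by rw [hsW]
    have e2' : s ω * Real.exp (-(θ * W)) ≤
        s ω * (1 + θ ^ 2 * B ^ 2) - θ * (h e ω - I * s ω) := by
      calc s ω * Real.exp (-(θ * W)) ≤ s ω * (1 - θ * W + θ ^ 2 * B ^ 2) :=
            mul_le_mul_of_nonneg_left (by nlinarith) hω.le
        _ = s ω * (1 + θ ^ 2 * B ^ 2) - θ * (s ω * W) := by ring
        _ = _ := by rw [hsW]
    calc s ω * (α e * Real.exp (θ * W) + β e * Real.exp (-(θ * W)))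
        = α e * (s ω * Real.exp (θ * W)) + β e * (s ω * Real.exp (-(θ * W))) := by ring
      _ ≤ _ := add_le_add (mul_le_mul_of_nonneg_left e1' (hα e))
            (mul_le_mul_of_nonneg_left e2' (hβ e))
  · intro ω hω
    have hh : ∀ e, h e ω = 0 := fun e =>
      le_antisymm (by have := hhs e ω; rw [hω, mul_zero] at this; exact this) (hh0 e ω)
    simp [hω, hh]

/-- additive importance sampling -/
theorem sampling_add {Ω : Type*} [MeasurableSpace Ω] (μ : Measure Ω) {E : Type*} [Fintype E]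
    [Nonempty E] (h : E → Ω → ℝ) (s : Ω → ℝ) {B : ℝ} (hB : 0 < B)
    (hh0 : ∀ e ω, 0 ≤ h e ω) (hhs : ∀ e ω, h e ω ≤ B * s ω)
    (hhi : ∀ e, Integrable (h e) μ)
    (hsi : Integrable s μ) (hs1 : ∫ ω, s ω ∂μ = 1) (hs0 : ∀ ω, 0 ≤ s ω)
    {L' : ℝ} (hLL : Real.log (2 * (Fintype.card E : ℝ)) ≤ L') (hL'0 : 0 < L')
    {ε : ℝ} (hε0 : 0 < ε) (hεB : ε ≤ 2 * B) (m : ℕ) (hm : 4 * B ^ 2 * L' / ε ^ 2 ≤ (m : ℝ)) :
    ∃ (ω : Fin m → Ω) (c : Fin m → ℝ), (∀ l, 0 ≤ c l) ∧ ∀ e,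
      |∑ l, c l * h e (ω l) - ∫ ω', h e ω' ∂μ| ≤ ε := by
  obtain ⟨θ, hθ⟩ : ∃ θ, θ = ε / (2 * B ^ 2) := ⟨_, rfl⟩
  have hθ0 : 0 < θ := by rw [hθ]; positivity
  have hθB : θ * B ≤ 1 := by
    rw [hθ, div_mul_eq_mul_div, div_le_one (by positivity)]
    nlinarith
  obtain ⟨ω, hP, hω⟩ := greedy_select_bounds (fun ω => 0 < s ω)
    (fun ω e => h e ω / s ω - ∫ ω', h e ω' ∂μ) θ (θ ^ 2 * B ^ 2) (-(θ ^ 2 * B ^ 2))
    (fun α β hα hβ => first_moment_add μ h s B θ hB hθ0.le hθB hh0 hhs hhi hsi hs1 hs0 α β hα hβ) m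
  obtain ⟨L, hL⟩ : ∃ L, L = Real.log (2 * (Fintype.card E : ℝ)) := ⟨_, rfl⟩
  rw [← hL] at hLL hω
  have hm0 : (0 : ℝ) < (m : ℝ) := lt_of_lt_of_le (by positivity) hm
  have hmL : 4 * B ^ 2 * L ≤ m * ε ^ 2 := by
    have h1 : 4 * B ^ 2 * L' ≤ m * ε ^ 2 := by
      rwa [div_le_iff₀ (by positivity)] at hm
    have h2 : 4 * B ^ 2 * L ≤ 4 * B ^ 2 * L' := mul_le_mul_of_nonneg_left hLL (by positivity)
    linarith
  refine ⟨ω, fun l => 1 / (m * s (ω l)), fun l => ?_, fun e => ?_⟩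
  · have := hP l
    positivity
  obtain ⟨hup, hlo⟩ := hω e
  obtain ⟨I, hI⟩ : ∃ I, I = ∫ ω', h e ω' ∂μ := ⟨_, rfl⟩
  rw [← hI] at hup hlo ⊢
  obtain ⟨Y, hY⟩ : ∃ Y, Y = ∑ l, (h e (ω l) / s (ω l) - I) := ⟨_, rfl⟩
  rw [← hY] at hup hlo
  have hsum : ∑ l, 1 / (m * s (ω l)) * h e (ω l) - I = Y / m := by
    rw [hY, Finset.sum_sub_distrib, Finset.sum_const, Finset.card_univ, Fintype.card_fin,
      nsmul_eq_mul, sub_div, Finset.sum_div]
    congr 1
    · apply Finset.sum_congr rfl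
      intro l _
      have h1 : 0 < s (ω l) := hP l
      field_simp
    · field_simp
  rw [hsum]
  -- θ Y ≤ m θ² B² + L,  -(m θ² B²) - L ≤ θ Y
  have hkey : (m * (θ ^ 2 * B ^ 2) + L) / (θ * m) ≤ ε := by
    rw [div_le_iff₀ (by positivity), hθ]
    have hB2 : 0 < B ^ 2 := by positivity
    have e1 : (m : ℝ) * ((ε / (2 * B ^ 2)) ^ 2 * B ^ 2) = m * ε ^ 2 / (4 * B ^ 2) := by
      field_simp; ring
    have e2 : ε * (ε / (2 * B ^ 2) * m) = m * ε ^ 2 / (2 * B ^ 2) := by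
      field_simp
    rw [e1, e2]
    have e3 : L ≤ m * ε ^ 2 / (4 * B ^ 2) := by
      rw [le_div_iff₀ (by positivity)]; linarith
    have e4 : (m : ℝ) * ε ^ 2 / (2 * B ^ 2) = m * ε ^ 2 / (4 * B ^ 2) + m * ε ^ 2 / (4 * B ^ 2) := by
      field_simp; ring
    rw [e4]; linarith
  have hYeq : Y / m = (θ * Y) / (θ * m) := by field_simp
  rw [hYeq, abs_le]
  have hden : 0 < θ * m := by positivity
  constructor
  · calc -ε ≤ -((m * (θ ^ 2 * B ^ 2) + L) / (θ * m)) := neg_le_neg hkey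
      _ = (m * (-(θ ^ 2 * B ^ 2)) - L) / (θ * m) := by ring
      _ ≤ θ * Y / (θ * m) := div_le_div_of_nonneg_right hlo hden.le
  · calc θ * Y / (θ * m) ≤ (m * (θ ^ 2 * B ^ 2) + L) / (θ * m) :=
          div_le_div_of_nonneg_right hup hden.le
      _ ≤ ε := hkey

end Vale.Agent.Lib.P249
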