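import Mathlib

/-!
Combinatorial core for the near-linear dimension reduction bound in `L_p`.
For a finite metric space and an arbitrary real function `f` on it, the largest
`p`-th power slope of `f` is controlled by a weighted sum of all `p`-th power slopes, with
weights `1 / #ball(u, dist u z)`.
-/

namespace Vale.Agent.Lib.P249

open Finset

open scoped Classical in
/-- number of points of the finite metric space within distance `t` of `u` -/
noncomputable def ballCard {ι : Type*} [Fintype ι] [Dist ι] (u : ι) (t : ℝ) : ℕ :=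
  (univ.filter (fun v => dist u v ≤ t)).card

/-- weighted slope term -/
noncomputable def slopeTerm {ι : Type*} [Fintype ι] [Dist ι] (p : ℝ) (f : ι → ℝ) (u z : ι) : ℝ :=
  |f u - f z| ^ p / (dist u z ^ p * (ballCard u (dist u z) : ℝ))

section
variable {ι : Type*} [Fintype ι] [MetricSpace ι]

lemma ballCard_mono (u : ι) {s t : ℝ} (h : s ≤ t) : ballCard u s ≤ ballCard u t := by
  classical
  unfold ballCard
  apply Finset.card_le_card
  intro v hv
  simp only [Finset.mem_filter, Finset.mem_univ, true_and] at hv ⊢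
  exact hv.trans h

lemma ballCard_le_card (u : ι) (t : ℝ) : ballCard u t ≤ Fintype.card ι := by
  classical
  unfold ballCard
  exact Finset.card_le_univ _

lemma ballCard_pos (u : ι) {t : ℝ} (ht : 0 ≤ t) : 0 < ballCard u t := by
  classical
  unfold ballCard
  apply Finset.card_pos.mpr
  exact ⟨u, by simp [ht]⟩

lemma two_le_ballCard {x y : ι} (hxy : x ≠ y) {t : ℝ} (ht : dist x y ≤ t) : 2 ≤ ballCard x t := by
  classical
  unfold ballCard
  have hsub : ({x, y} : Finset ι) ⊆ univ.filter (fun v => dist x v ≤ t) := by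
    intro v hv
    simp only [Finset.mem_insert, Finset.mem_singleton] at hv
    simp only [Finset.mem_filter, Finset.mem_univ, true_and]
    rcases hv with rfl | rfl
    · simpa using dist_nonneg.trans ht
    · exact ht
  calc 2 = ({x, y} : Finset ι).card := (Finset.card_pair hxy).symm
    _ ≤ _ := Finset.card_le_card hsub

lemma slopeTerm_nonneg (p : ℝ) (f : ι → ℝ) (u z : ι) : 0 ≤ slopeTerm p f u z := by
  unfold slopeTerm
  positivity

/-- one-sided lower bound for a single slope term -/
lemma slopeTerm_lower {p : ℝ} (hp : 0 < p) (f : ι → ℝ) {u w : ι} {a ρ M : ℝ}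
    (ha : 0 < a) (hfa : a ≤ |f u - f w|) (hρ : dist u w ≤ ρ)
    (hM : (ballCard u ρ : ℝ) ≤ M) :
    a ^ p / (ρ ^ p * M) ≤ slopeTerm p f u w := by
  have huw : u ≠ w := by
    rintro rfl
    simp at hfa
    linarith
  have hd : 0 < dist u w := dist_pos.mpr huw
  have hb : 0 < ballCard u (dist u w) := ballCard_pos u hd.le
  have hb' : (0 : ℝ) < (ballCard u (dist u w) : ℝ) := by exact_mod_cast hb
  have hbM : (ballCard u (dist u w) : ℝ) ≤ M := by
    refine le_trans ?_ hM
    exact_mod_cast ballCard_mono u hρ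
  unfold slopeTerm
  have h1 : a ^ p ≤ |f u - f w| ^ p := Real.rpow_le_rpow ha.le hfa hp.le
  have h2 : dist u w ^ p ≤ ρ ^ p := Real.rpow_le_rpow hd.le hρ hp.le
  have h3 : 0 < dist u w ^ p := Real.rpow_pos_of_pos hd p
  have h4 : dist u w ^ p * (ballCard u (dist u w) : ℝ) ≤ ρ ^ p * M :=
    mul_le_mul h2 hbM hb'.le (h3.le.trans h2)
  have h5 : 0 < dist u w ^ p * (ballCard u (dist u w) : ℝ) := mul_pos h3 hb'
  calc a ^ p / (ρ ^ p * M) ≤ a ^ p / (dist u w ^ p * (ballCard u (dist u w) : ℝ)) :=
        div_le_div_of_nonneg_left (Real.rpow_nonneg ha.le p) h5 h4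
    _ ≤ _ := div_le_div_of_nonneg_right h1 h5.le

/-- star estimate: the two rows `x`, `y` of the weighted slope sum see every point of a ball -/
lemma star_lower {p : ℝ} (hp : 0 < p) (f : ι → ℝ) {x y : ι} (R : ℕ) {M : ℝ}
    (hδ : 0 < |f x - f y|)
    (hMx : (ballCard x (((R : ℝ) + 1) * dist x y) : ℝ) ≤ M)
    (hMy : (ballCard y (((R : ℝ) + 1) * dist x y) : ℝ) ≤ M) :
    (ballCard x ((R : ℝ) * dist x y) : ℝ) *
        ((|f x - f y| / 2) ^ p / ((((R : ℝ) + 1) * dist x y) ^ p * M)) ≤
      ∑ w, (slopeTerm p f x w + slopeTerm p f y w) := by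
  classical
  set r := dist x y with hr
  set δ := |f x - f y| with hδdef
  set q := (δ / 2) ^ p / ((((R : ℝ) + 1) * r) ^ p * M) with hq
  have hr0 : 0 ≤ r := dist_nonneg
  have key : ∀ w ∈ univ.filter (fun v => dist x v ≤ (R : ℝ) * r),
      q ≤ slopeTerm p f x w + slopeTerm p f y w := by
    intro w hw
    simp only [Finset.mem_filter, Finset.mem_univ, true_and] at hw
    have htri : δ ≤ |f x - f w| + |f y - f w| := by
      have : f x - f y = (f x - f w) - (f y - f w) := by ring
      rw [hδdef, this]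
      exact abs_sub _ _
    by_cases hc : δ / 2 ≤ |f x - f w|
    · have h1 : q ≤ slopeTerm p f x w := by
        apply slopeTerm_lower hp f (by positivity) hc _ hMx
        calc dist x w ≤ (R : ℝ) * r := hw
          _ ≤ ((R : ℝ) + 1) * r := by nlinarith
      linarith [slopeTerm_nonneg p f y w]
    · have hc' : δ / 2 ≤ |f y - f w| := by
        have hc2 := not_le.mp hc
        linarith
      have h1 : q ≤ slopeTerm p f y w := by
        apply slopeTerm_lower hp f (by positivity) hc' _ hMy
        calc dist y w ≤ dist y x + dist x w := dist_triangle _ _ _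
          _ ≤ r + (R : ℝ) * r := by
              rw [dist_comm y x]
              linarith
          _ = ((R : ℝ) + 1) * r := by ring
      linarith [slopeTerm_nonneg p f x w]
  calc (ballCard x ((R : ℝ) * r) : ℝ) * q
      = ∑ _w ∈ univ.filter (fun v => dist x v ≤ (R : ℝ) * r), q := by
        rw [Finset.sum_const, nsmul_eq_mul]
        rfl
    _ ≤ ∑ w ∈ univ.filter (fun v => dist x v ≤ (R : ℝ) * r),
          (slopeTerm p f x w + slopeTerm p f y w) := Finset.sum_le_sum key
    _ ≤ ∑ w, (slopeTerm p f x w + slopeTerm p f y w) := by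
        apply Finset.sum_le_sum_of_subset_of_nonneg (Finset.filter_subset _ _)
        intro w _ _
        exact add_nonneg (slopeTerm_nonneg p f x w) (slopeTerm_nonneg p f y w)

end

/-- pigeonhole on growth -/
lemma exists_doubling_step (M : ℕ → ℕ) (J : ℕ) (h1 : 2 ≤ M 1) (hJ : M (J + 1) < 2 ^ (J + 1)) :
    ∃ R, 1 ≤ R ∧ R ≤ J ∧ M (R + 1) ≤ 2 * M R := by
  by_contra hcon0
  have hcon : ∀ R, 1 ≤ R → R ≤ J → 2 * M R < M (R + 1) := by
    intro R h1 h2
    by_contra h3
    exact hcon0 ⟨R, h1, h2, not_lt.mp h3⟩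
  have key : ∀ R, R ≤ J → 2 ^ (R + 1) ≤ M (R + 1) := by
    intro R
    induction R with
    | zero => intro _; simpa using h1
    | succ k ih =>
      intro hk
      have h2 := ih (by omega)
      have h3 := hcon (k + 1) (by omega) hk
      calc 2 ^ (k + 1 + 1) = 2 * 2 ^ (k + 1) := by ring
        _ ≤ 2 * M (k + 1) := by omega
        _ ≤ M (k + 1 + 1) := h3.le
  have := key J le_rfl
  omega

section
variable {ι : Type*} [Fintype ι] [MetricSpace ι]

/-- **Key inequality.**  Every `p`-th power slope of `f` is at most `2 (2 (J+1))^p` times the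
ball-weighted sum of all `p`-th power slopes, as soon as the space has fewer than `2^(J+1)`
points. -/
theorem slope_le_weighted {p : ℝ} (hp : 0 < p) (f : ι → ℝ) (J : ℕ)
    (hcard : Fintype.card ι < 2 ^ (J + 1)) {x y : ι} (hxy : x ≠ y) :
    |f x - f y| ^ p / dist x y ^ p ≤
      2 * (2 * ((J : ℝ) + 1)) ^ p * ∑ u, ∑ z, slopeTerm p f u z := by
  classical
  have hS0 : 0 ≤ ∑ u, ∑ z, slopeTerm p f u z :=
    Finset.sum_nonneg fun u _ => Finset.sum_nonneg fun z _ => slopeTerm_nonneg p f u z
  rcases eq_or_lt_of_le (abs_nonneg (f x - f y)) with h0 | hδ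
  · rw [← h0, Real.zero_rpow hp.ne', zero_div]
    positivity
  set r := dist x y with hr
  have hr0 : 0 < r := dist_pos.mpr hxy
  set S := ∑ u, ∑ z, slopeTerm p f u z with hS
  -- rows
  have hrows : ∑ w, (slopeTerm p f x w + slopeTerm p f y w) ≤ S := by
    rw [Finset.sum_add_distrib]
    have : ∑ u ∈ ({x, y} : Finset ι), ∑ z, slopeTerm p f u z ≤ S := by
      apply Finset.sum_le_sum_of_subset_of_nonneg (Finset.subset_univ _)
      intro u _ _
      exact Finset.sum_nonneg fun z _ => slopeTerm_nonneg p f u z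
    rwa [Finset.sum_pair hxy] at this
  have hrows' : ∑ w, (slopeTerm p f y w + slopeTerm p f x w) ≤ S := by
    refine le_trans (le_of_eq ?_) hrows
    exact Finset.sum_congr rfl fun w _ => add_comm _ _
  let M : ℕ → ℕ := fun R => max (ballCard x ((R : ℝ) * r)) (ballCard y ((R : ℝ) * r))
  have hM1 : 2 ≤ M 1 := by
    have : 2 ≤ ballCard x (((1 : ℕ) : ℝ) * r) := two_le_ballCard hxy (by simp [hr])
    exact this.trans (le_max_left _ _)
  have hMJ : M (J + 1) < 2 ^ (J + 1) :=
    lt_of_le_of_lt (max_le (ballCard_le_card _ _) (ballCard_le_card _ _)) hcard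
  obtain ⟨R, hR1, hRJ, hRM⟩ := exists_doubling_step M J hM1 hMJ
  have hcast : (((R + 1 : ℕ) : ℝ)) = (R : ℝ) + 1 := by push_cast; ring
  have hMx : (ballCard x (((R : ℝ) + 1) * dist x y) : ℝ) ≤ (M (R + 1) : ℝ) := by
    have : ballCard x (((R + 1 : ℕ) : ℝ) * r) ≤ M (R + 1) := le_max_left _ _
    rw [hcast] at this
    exact_mod_cast this
  have hMy : (ballCard y (((R : ℝ) + 1) * dist x y) : ℝ) ≤ (M (R + 1) : ℝ) := by
    have : ballCard y (((R + 1 : ℕ) : ℝ) * r) ≤ M (R + 1) := le_max_right _ _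
    rw [hcast] at this
    exact_mod_cast this
  have hA := (star_lower hp f R hδ hMx hMy).trans hrows
  have hδ' : 0 < |f y - f x| := by rwa [abs_sub_comm]
  have hB := (star_lower (x := y) (y := x) (M := (M (R + 1) : ℝ)) hp f R hδ'
    (by rw [dist_comm y x]; exact hMy) (by rw [dist_comm y x]; exact hMx)).trans hrows'
  rw [dist_comm y x, abs_sub_comm (f y) (f x)] at hB
  set δ := |f x - f y| with hδdef
  set q := (δ / 2) ^ p / ((((R : ℝ) + 1) * r) ^ p * (M (R + 1) : ℝ)) with hq
  have hq0 : 0 ≤ q := by positivity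
  have hMq : (M R : ℝ) * q ≤ S := by
    rcases le_total (ballCard x ((R : ℝ) * r)) (ballCard y ((R : ℝ) * r)) with h | h
    · have : M R = ballCard y ((R : ℝ) * r) := max_eq_right h
      rw [this]; exact hB
    · have : M R = ballCard x ((R : ℝ) * r) := max_eq_left h
      rw [this]; exact hA
  -- algebra
  have hmpos : (0 : ℝ) < (M R : ℝ) := by
    have : 0 < M R := lt_of_lt_of_le (ballCard_pos x (by positivity)) (le_max_left _ _)
    exact_mod_cast this
  have hm'pos : (0 : ℝ) < (M (R + 1) : ℝ) := by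
    have : 0 < M (R + 1) := lt_of_lt_of_le (ballCard_pos x (by positivity)) (le_max_left _ _)
    exact_mod_cast this
  have hmm : (M (R + 1) : ℝ) ≤ 2 * (M R : ℝ) := by exact_mod_cast hRM
  have ha : 0 < δ ^ p := Real.rpow_pos_of_pos hδ p
  have hb : 0 < r ^ p := Real.rpow_pos_of_pos hr0 p
  have hc : 0 < (2 : ℝ) ^ p := Real.rpow_pos_of_pos (by norm_num) p
  have he : 0 < ((R : ℝ) + 1) ^ p := Real.rpow_pos_of_pos (by positivity) p
  have hee : ((R : ℝ) + 1) ^ p ≤ ((J : ℝ) + 1) ^ p := by
    apply Real.rpow_le_rpow (by positivity) _ hp.le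
    have : (R : ℝ) ≤ (J : ℝ) := by exact_mod_cast hRJ
    linarith
  have hq' : q = δ ^ p / (2 : ℝ) ^ p / (((R : ℝ) + 1) ^ p * r ^ p * (M (R + 1) : ℝ)) := by
    rw [hq, Real.div_rpow hδ.le (by norm_num), Real.mul_rpow (by positivity) hr0.le]
  have hid : δ ^ p / r ^ p =
      ((M R : ℝ) * q) * ((2 : ℝ) ^ p * ((R : ℝ) + 1) ^ p * ((M (R + 1) : ℝ) / (M R : ℝ))) := by
    rw [hq']
    field_simp
  have hratio : (M (R + 1) : ℝ) / (M R : ℝ) ≤ 2 := by
    rw [div_le_iff₀ hmpos]; exact hmm
  have hfac : (2 : ℝ) ^ p * ((R : ℝ) + 1) ^ p * ((M (R + 1) : ℝ) / (M R : ℝ)) ≤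
      (2 : ℝ) ^ p * ((J : ℝ) + 1) ^ p * 2 := by
    have h0 : 0 ≤ (M (R + 1) : ℝ) / (M R : ℝ) := by positivity
    have h1 : (2 : ℝ) ^ p * ((R : ℝ) + 1) ^ p ≤ (2 : ℝ) ^ p * ((J : ℝ) + 1) ^ p :=
      mul_le_mul_of_nonneg_left hee hc.le
    exact mul_le_mul h1 hratio h0 (by positivity)
  calc δ ^ p / r ^ p
      = ((M R : ℝ) * q) * ((2 : ℝ) ^ p * ((R : ℝ) + 1) ^ p * ((M (R + 1) : ℝ) / (M R : ℝ))) := hid
    _ ≤ S * ((2 : ℝ) ^ p * ((J : ℝ) + 1) ^ p * 2) :=
        mul_le_mul hMq hfac (by positivity) hS0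
    _ = 2 * (2 * ((J : ℝ) + 1)) ^ p * S := by
        rw [Real.mul_rpow (by norm_num) (by positivity)]
        ring

omit [Fintype ι] [MetricSpace ι] in
open scoped Classical in
/-- harmonic bound for rank weights -/
lemma sum_inv_rank_le (g : ι → ℝ) (s : Finset ι) :
    ∑ z ∈ s, (1 : ℝ) / ((s.filter (fun v => g v ≤ g z)).card : ℝ) ≤ (harmonic s.card : ℝ) := by
  induction s using Finset.induction_on_max_value g with
  | empty => simp
  | insert a s ha hmax ih =>
    rw [Finset.sum_insert ha, Finset.card_insert_of_notMem ha, harmonic_succ]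
    have h1 : ((insert a s).filter (fun v => g v ≤ g a)) = insert a s := by
      apply Finset.filter_true_of_mem
      intro v hv
      rcases Finset.mem_insert.mp hv with rfl | hv
      · exact le_rfl
      · exact hmax v hv
    rw [h1, Finset.card_insert_of_notMem ha]
    have h2 : ∑ z ∈ s, (1 : ℝ) / (((insert a s).filter (fun v => g v ≤ g z)).card : ℝ) ≤
        ∑ z ∈ s, (1 : ℝ) / ((s.filter (fun v => g v ≤ g z)).card : ℝ) := by
      apply Finset.sum_le_sum
      intro z hz
      have hpos : 0 < (s.filter (fun v => g v ≤ g z)).card :=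
        Finset.card_pos.mpr ⟨z, by simp [hz]⟩
      have hle : (s.filter (fun v => g v ≤ g z)).card ≤
          ((insert a s).filter (fun v => g v ≤ g z)).card :=
        Finset.card_le_card (Finset.filter_subset_filter _ (Finset.subset_insert _ _))
      apply one_div_le_one_div_of_le
      · exact_mod_cast hpos
      · exact_mod_cast hle
    push_cast
    have h3 : (1 : ℝ) / ((s.card : ℝ) + 1) = ((s.card : ℝ) + 1)⁻¹ := one_div _
    linarith

/-- total ball weight of a row -/
lemma sum_inv_ballCard_le (u : ι) :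
    ∑ z, (1 : ℝ) / (ballCard u (dist u z) : ℝ) ≤ 1 + Real.log (Fintype.card ι) := by
  classical
  have h := sum_inv_rank_le (fun v => dist u v) (Finset.univ : Finset ι)
  have h2 := harmonic_le_one_add_log (Fintype.card ι)
  have h3 : ∑ z, (1 : ℝ) / (ballCard u (dist u z) : ℝ) =
      ∑ z ∈ (Finset.univ : Finset ι),
        (1 : ℝ) / (((Finset.univ : Finset ι).filter (fun v => dist u v ≤ dist u z)).card : ℝ) := by
    apply Finset.sum_congr rfl
    intro z _
    unfold ballCard
    congr!
  rw [h3]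
  exact h.trans (by simpa using h2)

end

end Vale.Agent.Lib.P249
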