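import Mathlib

/-!
Greedy (derandomised) exponential-moment selection of sample points.
-/

namespace Vale.Agent.Lib.P249

open Finset MeasureTheory

/-- greedy selection: if every positive combination of the exponentials can be kept below its
`mean bound` by a suitable choice of a point, then `m` points can be chosen one after the other
keeping the potential below its initial value. -/
theorem greedy_select {Ω E : Type*} [Fintype E] (P : Ω → Prop) (z : Ω → E → ℝ) (θ c₁ c₂ : ℝ)
    (H : ∀ α β : E → ℝ, (∀ e, 0 ≤ α e) → (∀ e, 0 ≤ β e) →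
      ∃ ω, P ω ∧ ∑ e, (α e * Real.exp (θ * z ω e) + β e * Real.exp (-(θ * z ω e))) ≤
        ∑ e, (α e * Real.exp c₁ + β e * Real.exp (-c₂)))
    (m : ℕ) :
    ∃ ω : Fin m → Ω, (∀ l, P (ω l)) ∧
      ∑ e, (Real.exp (θ * ∑ l, z (ω l) e - m * c₁) + Real.exp (-(θ * ∑ l, z (ω l) e) + m * c₂)) ≤
        2 * (Fintype.card E : ℝ) := by
  induction m with
  | zero =>
    refine ⟨Fin.elim0, fun l => l.elim0, ?_⟩
    simp
    ring_nf
    exact le_rfl
  | succ m ih =>
    obtain ⟨ω, hP, hω⟩ := ih
    obtain ⟨a, hPa, ha⟩ := H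
      (fun e => Real.exp (θ * ∑ l, z (ω l) e - ((m : ℝ) + 1) * c₁))
      (fun e => Real.exp (-(θ * ∑ l, z (ω l) e) + ((m : ℝ) + 1) * c₂))
      (fun e => (Real.exp_pos _).le) (fun e => (Real.exp_pos _).le)
    refine ⟨Fin.cons a ω, ?_, ?_⟩
    · intro l
      refine Fin.cases ?_ (fun i => ?_) l
      · simpa using hPa
      · simpa using hP i
    · refine le_trans (le_of_eq ?_) (ha.trans (le_trans (le_of_eq ?_) hω))
      · apply Finset.sum_congr rfl
        intro e _
        rw [Fin.sum_univ_succ]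
        simp only [Fin.cons_zero, Fin.cons_succ]
        rw [← Real.exp_add, ← Real.exp_add]
        push_cast
        congr 2 <;> ring
      · apply Finset.sum_congr rfl
        intro e _
        rw [← Real.exp_add, ← Real.exp_add]
        congr 2 <;> ring

/-- consequence for each index -/
theorem greedy_select_bounds {Ω E : Type*} [Fintype E] [Nonempty E] (P : Ω → Prop)
    (z : Ω → E → ℝ) (θ c₁ c₂ : ℝ)
    (H : ∀ α β : E → ℝ, (∀ e, 0 ≤ α e) → (∀ e, 0 ≤ β e) →
      ∃ ω, P ω ∧ ∑ e, (α e * Real.exp (θ * z ω e) + β e * Real.exp (-(θ * z ω e))) ≤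
        ∑ e, (α e * Real.exp c₁ + β e * Real.exp (-c₂)))
    (m : ℕ) :
    ∃ ω : Fin m → Ω, (∀ l, P (ω l)) ∧ ∀ e,
      θ * ∑ l, z (ω l) e ≤ m * c₁ + Real.log (2 * (Fintype.card E : ℝ)) ∧
      m * c₂ - Real.log (2 * (Fintype.card E : ℝ)) ≤ θ * ∑ l, z (ω l) e := by
  obtain ⟨ω, hP, hω⟩ := greedy_select P z θ c₁ c₂ H m
  refine ⟨ω, hP, fun e => ?_⟩
  have hcard : (0 : ℝ) < 2 * (Fintype.card E : ℝ) := by
    have : 0 < Fintype.card E := Fintype.card_pos
    positivity
  have hsingle : Real.exp (θ * ∑ l, z (ω l) e - m * c₁) +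
      Real.exp (-(θ * ∑ l, z (ω l) e) + m * c₂) ≤ 2 * (Fintype.card E : ℝ) := by
    refine le_trans ?_ hω
    exact Finset.single_le_sum
      (f := fun e => Real.exp (θ * ∑ l, z (ω l) e - m * c₁) +
        Real.exp (-(θ * ∑ l, z (ω l) e) + m * c₂))
      (fun e _ => add_nonneg (Real.exp_pos _).le (Real.exp_pos _).le) (Finset.mem_univ e)
  constructor
  · have h1 : Real.exp (θ * ∑ l, z (ω l) e - m * c₁) ≤ 2 * (Fintype.card E : ℝ) := by
      linarith [Real.exp_pos (-(θ * ∑ l, z (ω l) e) + m * c₂)]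
    have h2 := (Real.le_log_iff_exp_le hcard).mpr h1
    linarith
  · have h1 : Real.exp (-(θ * ∑ l, z (ω l) e) + m * c₂) ≤ 2 * (Fintype.card E : ℝ) := by
      linarith [Real.exp_pos (θ * ∑ l, z (ω l) e - m * c₁)]
    have h2 := (Real.le_log_iff_exp_le hcard).mpr h1
    linarith

/-- chord bound for the exponential on `[0,1]` -/
lemma exp_mul_le_chord (θ t : ℝ) (h0 : 0 ≤ t) (h1 : t ≤ 1) :
    Real.exp (θ * t) ≤ 1 + (Real.exp θ - 1) * t := by
  have h := convexOn_exp.2 (Set.mem_univ (0 : ℝ)) (Set.mem_univ θ)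
    (sub_nonneg.mpr h1) h0 (by ring)
  simp only [smul_eq_mul, mul_zero, zero_add, Real.exp_zero, mul_one] at h
  calc Real.exp (θ * t) = Real.exp (t * θ) := by rw [mul_comm]
    _ ≤ 1 - t + t * Real.exp θ := h
    _ = 1 + (Real.exp θ - 1) * t := by ring

/-- first moment principle in the form needed by `greedy_select` -/
theorem first_moment {Ω : Type*} [MeasurableSpace Ω] (μ : Measure Ω) {E : Type*} [Fintype E]
    (g : E → Ω → ℝ) (s : Ω → ℝ) (T θ : ℝ)
    (hg0 : ∀ e ω, 0 ≤ g e ω) (hgs : ∀ e ω, g e ω ≤ s ω)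
    (hgi : ∀ e, Integrable (g e) μ) (hg1 : ∀ e, ∫ ω, g e ω ∂μ = 1)
    (hsi : Integrable s μ) (hsT : ∫ ω, s ω ∂μ = T) (hT : 0 < T)
    (α β : E → ℝ) (hα : ∀ e, 0 ≤ α e) (hβ : ∀ e, 0 ≤ β e) :
    ∃ ω, 0 < s ω ∧
      ∑ e, (α e * Real.exp (θ * (g e ω / s ω)) + β e * Real.exp (-(θ * (g e ω / s ω)))) ≤
        ∑ e, (α e * Real.exp ((Real.exp θ - 1) / T) +
          β e * Real.exp (-((1 - Real.exp (-θ)) / T))) := by
  set c : ℝ := ∑ e, (α e * Real.exp ((Real.exp θ - 1) / T) +
          β e * Real.exp (-((1 - Real.exp (-θ)) / T))) with hc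
  by_contra hcon
  have hcon' : ∀ ω, 0 < s ω →
      c < ∑ e, (α e * Real.exp (θ * (g e ω / s ω)) + β e * Real.exp (-(θ * (g e ω / s ω)))) := by
    intro ω hω
    by_contra h
    exact hcon ⟨ω, hω, not_lt.mp h⟩
  -- the dominating integrable function
  let G : Ω → ℝ := fun ω => ∑ e, (α e * (s ω + (Real.exp θ - 1) * g e ω) +
      β e * (s ω + (Real.exp (-θ) - 1) * g e ω)) - c * s ω
  have hGi : Integrable G μ := by
    apply Integrable.sub
    · apply integrable_finsetSum
      intro e _
      apply Integrable.add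
      · exact (hsi.add ((hgi e).const_mul _)).const_mul _
      · exact (hsi.add ((hgi e).const_mul _)).const_mul _
    · exact hsi.const_mul _
  have hs0 : ∀ ω, 0 ≤ s ω := by
    intro ω
    by_cases hE : Nonempty E
    · obtain ⟨e⟩ := hE
      exact (hg0 e ω).trans (hgs e ω)
    · by_contra hneg
      -- no index: then c = 0 and the sum is empty
      have hEe : IsEmpty E := not_nonempty_iff.mp hE
      have hpos : ∃ ω, 0 < s ω := by
        by_contra hno
        have hle : ∀ ω, s ω ≤ 0 := fun ω => not_lt.mp fun h => hno ⟨ω, h⟩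
        have : ∫ ω, s ω ∂μ ≤ 0 := integral_nonpos hle
        linarith
      obtain ⟨ω', hω'⟩ := hpos
      have := hcon' ω' hω'
      simp [hc] at this
  have hGF : ∀ ω, 0 < s ω → 0 < G ω := by
    intro ω hω
    have h1 := hcon' ω hω
    have h2 : s ω * ∑ e, (α e * Real.exp (θ * (g e ω / s ω)) +
        β e * Real.exp (-(θ * (g e ω / s ω)))) ≤
        ∑ e, (α e * (s ω + (Real.exp θ - 1) * g e ω) +
          β e * (s ω + (Real.exp (-θ) - 1) * g e ω)) := by
      rw [Finset.mul_sum]
      apply Finset.sum_le_sum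
      intro e _
      have ht0 : 0 ≤ g e ω / s ω := div_nonneg (hg0 e ω) hω.le
      have ht1 : g e ω / s ω ≤ 1 := (div_le_one hω).mpr (hgs e ω)
      have e1 := exp_mul_le_chord θ _ ht0 ht1
      have e2 := exp_mul_le_chord (-θ) _ ht0 ht1
      have hmul : s ω * (g e ω / s ω) = g e ω := by field_simp
      have e1' : s ω * Real.exp (θ * (g e ω / s ω)) ≤ s ω + (Real.exp θ - 1) * g e ω := by
        calc s ω * Real.exp (θ * (g e ω / s ω))
            ≤ s ω * (1 + (Real.exp θ - 1) * (g e ω / s ω)) :=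
              mul_le_mul_of_nonneg_left e1 hω.le
          _ = s ω + (Real.exp θ - 1) * (s ω * (g e ω / s ω)) := by ring
          _ = _ := by rw [hmul]
      have e2' : s ω * Real.exp (-(θ * (g e ω / s ω))) ≤
          s ω + (Real.exp (-θ) - 1) * g e ω := by
        calc s ω * Real.exp (-(θ * (g e ω / s ω)))
            = s ω * Real.exp (-θ * (g e ω / s ω)) := by rw [neg_mul]
          _ ≤ s ω * (1 + (Real.exp (-θ) - 1) * (g e ω / s ω)) :=
              mul_le_mul_of_nonneg_left e2 hω.le
          _ = s ω + (Real.exp (-θ) - 1) * (s ω * (g e ω / s ω)) := by ring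
          _ = _ := by rw [hmul]
      calc s ω * (α e * Real.exp (θ * (g e ω / s ω)) + β e * Real.exp (-(θ * (g e ω / s ω))))
          = α e * (s ω * Real.exp (θ * (g e ω / s ω))) +
            β e * (s ω * Real.exp (-(θ * (g e ω / s ω)))) := by ring
        _ ≤ _ := add_le_add (mul_le_mul_of_nonneg_left e1' (hα e))
              (mul_le_mul_of_nonneg_left e2' (hβ e))
    have h3 : c * s ω < s ω * ∑ e, (α e * Real.exp (θ * (g e ω / s ω)) +
        β e * Real.exp (-(θ * (g e ω / s ω)))) := by
      rw [mul_comm c]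
      exact mul_lt_mul_of_pos_left h1 hω
    show 0 < _ - c * s ω
    linarith
  have hG0 : ∀ ω, 0 ≤ G ω := by
    intro ω
    rcases eq_or_lt_of_le (hs0 ω) with h | h
    · have hg : ∀ e, g e ω = 0 := fun e => le_antisymm (by rw [h]; exact hgs e ω) (hg0 e ω)
      show 0 ≤ _ - c * s ω
      simp [← h, hg]
    · exact (hGF ω h).le
  -- the integral of G is nonpositive
  have hGint : ∫ ω, G ω ∂μ ≤ 0 := by
    have h1 : ∫ ω, G ω ∂μ = ∑ e, (α e * (T + (Real.exp θ - 1)) +
        β e * (T + (Real.exp (-θ) - 1))) - c * T := by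
      show ∫ ω, (∑ e, (α e * (s ω + (Real.exp θ - 1) * g e ω) +
        β e * (s ω + (Real.exp (-θ) - 1) * g e ω)) - c * s ω) ∂μ = _
      rw [integral_sub, integral_finsetSum, integral_const_mul, hsT]
      · congr 1
        apply Finset.sum_congr rfl
        intro e _
        rw [integral_add, integral_const_mul, integral_const_mul, integral_add, integral_add,
          integral_const_mul, integral_const_mul, hsT, hg1 e]
        · ring
        · exact hsi
        · exact (hgi e).const_mul _
        · exact hsi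
        · exact (hgi e).const_mul _
        · exact (hsi.add ((hgi e).const_mul _)).const_mul _
        · exact (hsi.add ((hgi e).const_mul _)).const_mul _
      · intro e _
        apply Integrable.add
        · exact (hsi.add ((hgi e).const_mul _)).const_mul _
        · exact (hsi.add ((hgi e).const_mul _)).const_mul _
      · apply integrable_finsetSum
        intro e _
        apply Integrable.add
        · exact (hsi.add ((hgi e).const_mul _)).const_mul _
        · exact (hsi.add ((hgi e).const_mul _)).const_mul _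
      · exact hsi.const_mul _
    rw [h1, hc, Finset.sum_mul, ← Finset.sum_sub_distrib]
    apply Finset.sum_nonpos
    intro e _
    have a1 : T + (Real.exp θ - 1) ≤ Real.exp ((Real.exp θ - 1) / T) * T := by
      have := Real.add_one_le_exp ((Real.exp θ - 1) / T)
      calc T + (Real.exp θ - 1) = ((Real.exp θ - 1) / T + 1) * T := by field_simp; ring
        _ ≤ _ := mul_le_mul_of_nonneg_right this hT.le
    have a2 : T + (Real.exp (-θ) - 1) ≤ Real.exp (-((1 - Real.exp (-θ)) / T)) * T := by
      have := Real.add_one_le_exp (-((1 - Real.exp (-θ)) / T))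
      calc T + (Real.exp (-θ) - 1) = (-((1 - Real.exp (-θ)) / T) + 1) * T := by field_simp; ring
        _ ≤ _ := mul_le_mul_of_nonneg_right this hT.le
    have b1 := mul_le_mul_of_nonneg_left a1 (hα e)
    have b2 := mul_le_mul_of_nonneg_left a2 (hβ e)
    nlinarith
  have hGzero : ∫ ω, G ω ∂μ = 0 := le_antisymm hGint (integral_nonneg hG0)
  have hae : G =ᵐ[μ] 0 := (integral_eq_zero_iff_of_nonneg hG0 hGi).mp hGzero
  have hsae : s =ᵐ[μ] 0 := by
    filter_upwards [hae] with ω hω
    rcases eq_or_lt_of_le (hs0 ω) with h | h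
    · exact h.symm
    · have := hGF ω h
      simp only [Pi.zero_apply] at hω
      linarith
  have : ∫ ω, s ω ∂μ = 0 := by
    rw [integral_congr_ae hsae]
    simp
  linarith

end Vale.Agent.Lib.P249
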