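import Vale.Agent.Lib.P249.Combi
import Vale.Agent.Lib.P249.Sampling

/-!
Core sparsification theorem: finitely many functions on a measure space whose pairwise
`p`-th power distances are finite can be evaluated at few weighted sample points while keeping
all pairwise `p`-th power distances up to `1 ± ε`.
-/

namespace Vale.Agent.Lib.P249

open Finset MeasureTheory

/-- abstract importance sampling: densities `g e` of integral one, all dominated by `s`. -/
theorem sampling {Ω : Type*} [MeasurableSpace Ω] (μ : Measure Ω) {E : Type*} [Fintype E]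
    [Nonempty E] (g : E → Ω → ℝ) (s : Ω → ℝ)
    (hg0 : ∀ e ω, 0 ≤ g e ω) (hgs : ∀ e ω, g e ω ≤ s ω)
    (hgi : ∀ e, Integrable (g e) μ) (hg1 : ∀ e, ∫ ω, g e ω ∂μ = 1)
    (hsi : Integrable s μ) {T₀ L' : ℝ} (hT_le : ∫ ω, s ω ∂μ ≤ T₀)
    (hLL : Real.log (2 * (Fintype.card E : ℝ)) ≤ L') (hL'0 : 0 < L')
    {ε : ℝ} (hε0 : 0 < ε) (hε1 : ε ≤ 1) (m : ℕ) (hm : 4 * L' * T₀ / ε ^ 2 ≤ (m : ℝ)) :
    ∃ (ω : Fin m → Ω) (c : Fin m → ℝ), (∀ l, 0 ≤ c l) ∧ ∀ e,
      1 - ε ≤ ∑ l, c l * g e (ω l) ∧ ∑ l, c l * g e (ω l) ≤ 1 + ε := by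
  obtain ⟨T, hT⟩ : ∃ T, T = ∫ ω, s ω ∂μ := ⟨_, rfl⟩
  rw [← hT] at hT_le
  have hT1 : 1 ≤ T := by
    obtain ⟨e⟩ := ‹Nonempty E›
    rw [hT, ← hg1 e]
    exact integral_mono (hgi e) hsi (hgs e)
  have hT0 : 0 < T := by linarith
  obtain ⟨θ, hθ⟩ : ∃ θ, θ = ε / 2 := ⟨_, rfl⟩
  have hθ0 : 0 < θ := by rw [hθ]; positivity
  have hθ1 : θ ≤ 1 := by rw [hθ]; linarith
  obtain ⟨ω, hP, hω⟩ := greedy_select_bounds (fun ω => 0 < s ω) (fun ω e => g e ω / s ω) θ
    ((Real.exp θ - 1) / T) ((1 - Real.exp (-θ)) / T)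
    (fun α β hα hβ => first_moment μ g s T θ hg0 hgs hgi hg1 hsi hT.symm hT0 α β hα hβ) m
  obtain ⟨L, hL⟩ : ∃ L, L = Real.log (2 * (Fintype.card E : ℝ)) := ⟨_, rfl⟩
  rw [← hL] at hLL hω
  have hT₀ : 0 < T₀ := lt_of_lt_of_le hT0 hT_le
  have hm0 : (0 : ℝ) < (m : ℝ) := lt_of_lt_of_le (by positivity) hm
  have hmT : 4 * L * T / ε ^ 2 ≤ (m : ℝ) := by
    refine le_trans ?_ hm
    apply div_le_div_of_nonneg_right _ (by positivity)
    have : L * T ≤ L' * T₀ := by
      by_cases hLneg : L ≤ 0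
      · have : L * T ≤ 0 := mul_nonpos_of_nonpos_of_nonneg hLneg hT0.le
        have h2 : 0 ≤ L' * T₀ := by positivity
        linarith
      · exact mul_le_mul hLL hT_le hT0.le hL'0.le
    nlinarith
  have hexp1 : Real.exp θ - 1 ≤ θ + θ ^ 2 := by
    have := Real.abs_exp_sub_one_sub_id_le (x := θ) (by rw [abs_of_pos hθ0]; exact hθ1)
    have := (abs_le.mp this).2
    linarith
  have hexp2 : θ - θ ^ 2 ≤ 1 - Real.exp (-θ) := by
    have := Real.abs_exp_sub_one_sub_id_le (x := -θ) (by rw [abs_neg, abs_of_pos hθ0]; exact hθ1)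
    have := (abs_le.mp this).2
    nlinarith
  have hLT : L * T / (θ * m) ≤ ε / 2 := by
    rw [div_le_iff₀ (by positivity)]
    have h1 : 4 * L * T ≤ m * ε ^ 2 := by
      rwa [div_le_iff₀ (by positivity)] at hmT
    rw [hθ]
    nlinarith
  refine ⟨ω, fun l => T / (m * s (ω l)), fun l => ?_, fun e => ?_⟩
  · have := hP l
    positivity
  obtain ⟨hup, hlo⟩ := hω e
  obtain ⟨Y, hY⟩ : ∃ Y, Y = ∑ l, g e (ω l) / s (ω l) := ⟨_, rfl⟩
  rw [← hY] at hup hlo
  have hsum : ∑ l, T / (m * s (ω l)) * g e (ω l) = T / m * Y := by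
    rw [hY, Finset.mul_sum]
    apply Finset.sum_congr rfl
    intro l _
    have h1 : 0 < s (ω l) := hP l
    field_simp
  rw [hsum]
  have h2 : T / m * Y = T / (θ * m) * (θ * Y) := by field_simp
  constructor
  · rw [h2]
    calc 1 - ε = (θ - θ ^ 2) / θ - ε / 2 := by
          rw [hθ]; field_simp; ring
      _ ≤ (1 - Real.exp (-θ)) / θ - L * T / (θ * m) := by
          apply sub_le_sub _ hLT
          exact div_le_div_of_nonneg_right hexp2 hθ0.le
      _ = T / (θ * m) * (m * ((1 - Real.exp (-θ)) / T) - L) := by field_simp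
      _ ≤ T / (θ * m) * (θ * Y) := mul_le_mul_of_nonneg_left hlo (by positivity)
  · rw [h2]
    calc T / (θ * m) * (θ * Y) ≤ T / (θ * m) * (m * ((Real.exp θ - 1) / T) + L) :=
          mul_le_mul_of_nonneg_left hup (by positivity)
      _ = (Real.exp θ - 1) / θ + L * T / (θ * m) := by field_simp
      _ ≤ (θ + θ ^ 2) / θ + ε / 2 := by
          apply add_le_add _ hLT
          exact div_le_div_of_nonneg_right hexp1 hθ0.le
      _ = 1 + ε := by
          rw [hθ]; field_simp; ring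

/-- the (upper bound for the) total sensitivity -/
noncomputable def sensBound (p : ℝ) (J n : ℕ) : ℝ :=
  2 * (2 * ((J : ℝ) + 1)) ^ p * ((n : ℝ) * (1 + Real.log n))

section
variable {Ω : Type*} [MeasurableSpace Ω] (μ : Measure Ω) {ι : Type*} [Fintype ι]
    [MetricSpace ι] {p : ℝ} (x : ι → Ω → ℝ)

lemma slopeTerm_integrable
    (hint : ∀ i j, Integrable (fun ω => |x i ω - x j ω| ^ p) μ) (u z : ι) :
    Integrable (fun ω => slopeTerm p (fun i => x i ω) u z) μ := by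
  unfold slopeTerm
  exact (hint u z).div_const _

lemma slopeTerm_integral_le (hp : 0 < p)
    (hdist : ∀ i j, ∫ ω, |x i ω - x j ω| ^ p ∂μ = dist i j ^ p) (u z : ι) :
    ∫ ω, slopeTerm p (fun i => x i ω) u z ∂μ ≤ 1 / (ballCard u (dist u z) : ℝ) := by
  unfold slopeTerm
  rw [integral_div, hdist]
  by_cases huz : u = z
  · subst huz
    simp [Real.zero_rpow hp.ne']
  · have hd : 0 < dist u z ^ p := Real.rpow_pos_of_pos (dist_pos.mpr huz) p
    rw [div_mul_eq_div_div, div_self hd.ne']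

lemma sens_integrable (C : ℝ)
    (hint : ∀ i j, Integrable (fun ω => |x i ω - x j ω| ^ p) μ) :
    Integrable (fun ω => C * ∑ u, ∑ z, slopeTerm p (fun i => x i ω) u z) μ := by
  apply Integrable.const_mul
  apply integrable_finsetSum
  intro u _
  apply integrable_finsetSum
  intro z _
  exact slopeTerm_integrable μ x hint u z

lemma sens_integral_le (hp : 0 < p) (J : ℕ)
    (hint : ∀ i j, Integrable (fun ω => |x i ω - x j ω| ^ p) μ)
    (hdist : ∀ i j, ∫ ω, |x i ω - x j ω| ^ p ∂μ = dist i j ^ p) :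
    ∫ ω, (2 * (2 * ((J : ℝ) + 1)) ^ p) * ∑ u, ∑ z, slopeTerm p (fun i => x i ω) u z ∂μ ≤
      sensBound p J (Fintype.card ι) := by
  rw [integral_const_mul, integral_finsetSum]
  · unfold sensBound
    apply mul_le_mul_of_nonneg_left _ (by positivity)
    calc ∑ u, ∫ ω, ∑ z, slopeTerm p (fun i => x i ω) u z ∂μ
        = ∑ u, ∑ z, ∫ ω, slopeTerm p (fun i => x i ω) u z ∂μ := by
          apply Finset.sum_congr rfl
          intro u _
          rw [integral_finsetSum]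
          intro z _
          exact slopeTerm_integrable μ x hint u z
      _ ≤ ∑ u : ι, ∑ z, 1 / (ballCard u (dist u z) : ℝ) :=
          Finset.sum_le_sum fun u _ => Finset.sum_le_sum fun z _ =>
            slopeTerm_integral_le μ x hp hdist u z
      _ ≤ ∑ _u : ι, (1 + Real.log (Fintype.card ι)) :=
          Finset.sum_le_sum fun u _ => sum_inv_ballCard_le u
      _ = (Fintype.card ι : ℝ) * (1 + Real.log (Fintype.card ι)) := by
          rw [Finset.sum_const, nsmul_eq_mul, Finset.card_univ]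
  · intro u _
    apply integrable_finsetSum
    intro z _
    exact slopeTerm_integrable μ x hint u z

theorem core (hp : 0 < p)
    (hint : ∀ i j, Integrable (fun ω => |x i ω - x j ω| ^ p) μ)
    (hdist : ∀ i j, ∫ ω, |x i ω - x j ω| ^ p ∂μ = dist i j ^ p)
    {ε : ℝ} (hε0 : 0 < ε) (hε1 : ε ≤ 1) (J : ℕ) (hcard : Fintype.card ι < 2 ^ (J + 1))
    (hn : 2 ≤ Fintype.card ι) (m : ℕ)
    (hm : 4 * Real.log (2 * (Fintype.card ι : ℝ) ^ 2) * sensBound p J (Fintype.card ι) / ε ^ 2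
      ≤ (m : ℝ)) :
    ∃ (ω : Fin m → Ω) (c : Fin m → ℝ), (∀ l, 0 ≤ c l) ∧ ∀ i j,
      (1 - ε) * dist i j ^ p ≤ ∑ l, c l * |x i (ω l) - x j (ω l)| ^ p ∧
      ∑ l, c l * |x i (ω l) - x j (ω l)| ^ p ≤ (1 + ε) * dist i j ^ p := by
  classical
  have hn1 : (2 : ℝ) ≤ (Fintype.card ι : ℝ) := by exact_mod_cast hn
  have hEne : Nonempty {e : ι × ι // e.1 ≠ e.2} := by
    obtain ⟨a, b, hab⟩ := Fintype.exists_pair_of_one_lt_card (α := ι) (by omega)
    exact ⟨⟨(a, b), hab⟩⟩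
  have hdpos : ∀ e : {e : ι × ι // e.1 ≠ e.2}, 0 < dist e.1.1 e.1.2 ^ p := fun e =>
    Real.rpow_pos_of_pos (dist_pos.mpr e.2) p
  have hEcard : (Fintype.card {e : ι × ι // e.1 ≠ e.2} : ℝ) ≤ (Fintype.card ι : ℝ) ^ 2 := by
    have h1 : Fintype.card {e : ι × ι // e.1 ≠ e.2} ≤ Fintype.card (ι × ι) :=
      Fintype.card_subtype_le _
    rw [Fintype.card_prod] at h1
    have : (Fintype.card {e : ι × ι // e.1 ≠ e.2} : ℝ) ≤
        ((Fintype.card ι * Fintype.card ι : ℕ) : ℝ) := by exact_mod_cast h1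
    calc _ ≤ ((Fintype.card ι * Fintype.card ι : ℕ) : ℝ) := this
      _ = (Fintype.card ι : ℝ) ^ 2 := by push_cast; ring
  have hEpos : (0 : ℝ) < (Fintype.card {e : ι × ι // e.1 ≠ e.2} : ℝ) := by
    have : 0 < Fintype.card {e : ι × ι // e.1 ≠ e.2} := Fintype.card_pos
    exact_mod_cast this
  obtain ⟨ω, c, hc, h⟩ := sampling μ
    (g := fun (e : {e : ι × ι // e.1 ≠ e.2}) ω =>
      |x e.1.1 ω - x e.1.2 ω| ^ p / dist e.1.1 e.1.2 ^ p)
    (s := fun ω => (2 * (2 * ((J : ℝ) + 1)) ^ p) * ∑ u, ∑ z, slopeTerm p (fun i => x i ω) u z)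
    (fun e ω => by positivity)
    (fun e ω => slope_le_weighted hp (fun i => x i ω) J hcard e.2)
    (fun e => (hint e.1.1 e.1.2).div_const _)
    (fun e => by rw [integral_div, hdist, div_self (hdpos e).ne'])
    (sens_integrable μ x _ hint)
    (sens_integral_le μ x hp J hint hdist)
    (Real.log_le_log (by positivity) (by linarith))
    (Real.log_pos (by nlinarith)) hε0 hε1 m hm
  refine ⟨ω, c, hc, fun i j => ?_⟩
  by_cases hij : i = j
  · subst hij
    simp [Real.zero_rpow hp.ne']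
  have h2 : 0 < dist i j ^ p := hdpos ⟨(i, j), hij⟩
  obtain ⟨hlo, hup⟩ := h ⟨(i, j), hij⟩
  have hsum : ∑ l, c l * |x i (ω l) - x j (ω l)| ^ p =
      (∑ l, c l * (|x i (ω l) - x j (ω l)| ^ p / dist i j ^ p)) * dist i j ^ p := by
    rw [Finset.sum_mul]
    apply Finset.sum_congr rfl
    intro l _
    field_simp
  rw [hsum]
  exact ⟨mul_le_mul_of_nonneg_right hlo h2.le, mul_le_mul_of_nonneg_right hup h2.le⟩

end

end Vale.Agent.Lib.P249
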