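import Vale.Agent.Lib.P249.PLBox

/-!
Dimension-free concentration for Euclidean-Lipschitz functions on the integer box `[-M, M]^k`
with the discrete Gaussian weight `exp (-|x|^2 / (2 M^2))`.
-/

namespace Vale.Agent.Lib.P249

open Finset

/-- squared Euclidean norm of an integer vector -/
noncomputable def nsq {k : ℕ} (x : Fin k → ℤ) : ℝ := ∑ i, (x i : ℝ) ^ 2

/-- discrete Gaussian weight -/
noncomputable def gw {k : ℕ} (M : ℕ) (x : Fin k → ℤ) : ℝ :=
  Real.exp (-(nsq x) / (2 * (M : ℝ) ^ 2))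

lemma nsq_nonneg {k : ℕ} (x : Fin k → ℤ) : 0 ≤ nsq x :=
  Finset.sum_nonneg fun _ _ => sq_nonneg _

lemma gw_pos {k : ℕ} (M : ℕ) (x : Fin k → ℤ) : 0 < gw M x := Real.exp_pos _

lemma nsq_neg {k : ℕ} (x : Fin k → ℤ) : nsq (-x) = nsq x := by
  simp [nsq]

lemma gw_neg {k : ℕ} (M : ℕ) (x : Fin k → ℤ) : gw M (-x) = gw M x := by
  simp [gw, nsq_neg]

lemma neg_mem_box {k : ℕ} {M : ℤ} {x : Fin k → ℤ} (hx : x ∈ box k M) : -x ∈ box k M := by
  rw [mem_box] at hx ⊢
  intro i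
  have := hx i
  simp only [Pi.neg_apply]
  constructor <;> omega

lemma coord_ineq (M : ℝ) (a b c : ℝ) (ha : |a| ≤ M) (hb : |b| ≤ M)
    (hc : |2 * c - (a + b)| ≤ 1) :
    (a - b) ^ 2 / 2 - (2 * M + 1 / 2) ≤ a ^ 2 + b ^ 2 - 2 * c ^ 2 := by
  obtain ⟨θ, hθ⟩ : ∃ θ, θ = 2 * c - (a + b) := ⟨_, rfl⟩
  rw [← hθ] at hc
  have hcc : c = (a + b + θ) / 2 := by rw [hθ]; ring
  rw [abs_le] at ha hb hc
  have h1 : θ * (a + b) ≤ 2 * M := by
    have hM : 0 ≤ M := by linarith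
    have h2 : |θ * (a + b)| ≤ 1 * (2 * M) := by
      rw [abs_mul]
      apply mul_le_mul (abs_le.mpr hc) _ (abs_nonneg _) zero_le_one
      rw [abs_le]; constructor <;> linarith
    linarith [le_abs_self (θ * (a + b))]
  have h3 : θ ^ 2 ≤ 1 := by nlinarith
  rw [hcc]
  nlinarith

lemma nsq_mid {k : ℕ} (M : ℕ) (x y c : Fin k → ℤ) (hx : x ∈ box k M) (hy : y ∈ box k M)
    (hc : ∀ i, |2 * c i - (x i + y i)| ≤ 1) :
    nsq (x - y) / 2 - k * (2 * M + 1 / 2) ≤ nsq x + nsq y - 2 * nsq c := by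
  rw [mem_box] at hx hy
  have h : ∀ i : Fin k, ((x i : ℝ) - y i) ^ 2 / 2 - (2 * (M : ℝ) + 1 / 2)
      ≤ (x i : ℝ) ^ 2 + (y i : ℝ) ^ 2 - 2 * (c i : ℝ) ^ 2 := by
    intro i
    apply coord_ineq
    · rw [abs_le]
      constructor
      · have := (hx i).1; exact_mod_cast this
      · have := (hx i).2; exact_mod_cast this
    · rw [abs_le]
      constructor
      · have := (hy i).1; exact_mod_cast this
      · have := (hy i).2; exact_mod_cast this
    · have := hc i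
      exact_mod_cast this
  have hs := Finset.sum_le_sum (s := Finset.univ) fun i _ => h i
  simp only [Finset.sum_sub_distrib, Finset.sum_add_distrib, Finset.sum_const, Finset.card_univ,
    Fintype.card_fin, nsmul_eq_mul, ← Finset.sum_div, ← Finset.mul_sum] at hs
  simp only [nsq, Pi.sub_apply, Int.cast_sub]
  linarith

/-- the error exponent -/
noncomputable def errE (k M : ℕ) : ℝ := k * (4 * M + 1) / (4 * (M : ℝ) ^ 2)

theorem grid_mgf (k M : ℕ) (hM : 1 ≤ M) (u : (Fin k → ℤ) → ℝ) (L : ℝ)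
    (hu : ∀ x ∈ box k M, ∀ y ∈ box k M, u x - u y ≤ L * Real.sqrt (nsq (x - y)))
    (t : ℝ) (ht : 0 ≤ t) :
    (∑ x ∈ box k M, Real.exp (t * u x) * gw M x) *
      (∑ y ∈ box k M, Real.exp (-(t * u y)) * gw M y)
      ≤ (Real.exp ((t ^ 2 * L ^ 2 * M ^ 2 + errE k M) / 2) * ∑ c ∈ box k M, gw M c) ^ 2 := by
  have hMr : (1 : ℝ) ≤ M := by exact_mod_cast hM
  have hM0 : (0 : ℝ) < M := by linarith
  rw [Finset.mul_sum (box k M) (fun c => gw M c)]
  apply pl_box M k (fun x => Real.exp (t * u x) * gw M x)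
    (fun y => Real.exp (-(t * u y)) * gw M y)
    (fun c => Real.exp ((t ^ 2 * L ^ 2 * M ^ 2 + errE k M) / 2) * gw M c)
    (fun x => (mul_pos (Real.exp_pos _) (gw_pos M x)).le)
    (fun x => (mul_pos (Real.exp_pos _) (gw_pos M x)).le)
    (fun x => (mul_pos (Real.exp_pos _) (gw_pos M x)).le)
  intro x hx y hy c hc
  have h1 := nsq_mid M x y c hx hy hc
  have h2 := hu x hx y hy
  obtain ⟨r, hr⟩ : ∃ r, r = Real.sqrt (nsq (x - y)) := ⟨_, rfl⟩
  have hr2 : r ^ 2 = nsq (x - y) := by rw [hr]; exact Real.sq_sqrt (nsq_nonneg _)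
  rw [← hr] at h2
  rw [← hr2] at h1
  simp only [gw]
  rw [mul_pow, ← Real.exp_nat_mul, ← Real.exp_nat_mul, ← Real.exp_add, ← Real.exp_add,
    ← Real.exp_add, ← Real.exp_add]
  apply Real.exp_le_exp.mpr
  have h3 : t * (u x - u y) ≤ t * (L * r) := mul_le_mul_of_nonneg_left h2 ht
  have h4 : t * (L * r) - r ^ 2 / (4 * (M : ℝ) ^ 2) ≤ t ^ 2 * L ^ 2 * M ^ 2 := by
    have : 0 ≤ (r / (2 * M) - t * L * M) ^ 2 := sq_nonneg _
    have e : (r / (2 * M) - t * L * M) ^ 2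
        = r ^ 2 / (4 * (M : ℝ) ^ 2) - t * (L * r) + t ^ 2 * L ^ 2 * M ^ 2 := by
      field_simp
      ring
    linarith
  have h5 : (r ^ 2 / 2 - k * (2 * M + 1 / 2)) / (2 * (M : ℝ) ^ 2)
      ≤ (nsq x + nsq y - 2 * nsq c) / (2 * (M : ℝ) ^ 2) :=
    div_le_div_of_nonneg_right h1 (by positivity)
  have e5 : (r ^ 2 / 2 - k * (2 * M + 1 / 2)) / (2 * (M : ℝ) ^ 2)
      = r ^ 2 / (4 * (M : ℝ) ^ 2) - errE k M := by
    simp only [errE]
    field_simp
    ring
  have e6 : (nsq x + nsq y - 2 * nsq c) / (2 * (M : ℝ) ^ 2)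
      = -(-(nsq x) / (2 * (M : ℝ) ^ 2)) - (-(nsq y) / (2 * (M : ℝ) ^ 2))
        + 2 * (-(nsq c) / (2 * (M : ℝ) ^ 2)) := by
    field_simp
    ring
  push_cast
  linarith


lemma sum_box_neg (k : ℕ) (M : ℤ) (F : (Fin k → ℤ) → ℝ) :
    ∑ x ∈ box k M, F (-x) = ∑ x ∈ box k M, F x := by
  apply Finset.sum_nbij' (fun x => -x) (fun x => -x)
  · intro x hx; exact neg_mem_box hx
  · intro x hx; exact neg_mem_box hx
  · intro x _; simp
  · intro x _; simp
  · intro x _; rfl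

theorem grid_antipodal_mgf (k M : ℕ) (hM : 1 ≤ M) (u : (Fin k → ℤ) → ℝ) (L : ℝ)
    (hu : ∀ x ∈ box k M, ∀ y ∈ box k M, u x - u y ≤ L * Real.sqrt (nsq (x - y)))
    (t : ℝ) (ht : 0 ≤ t) :
    ∑ x ∈ box k M, Real.exp (t * (u x - u (-x))) * gw M x
      ≤ Real.exp (2 * t ^ 2 * L ^ 2 * M ^ 2 + errE k M / 2) * ∑ c ∈ box k M, gw M c := by
  have hZ : 0 ≤ ∑ c ∈ box k M, gw M c := Finset.sum_nonneg fun c _ => (gw_pos M c).le
  have hcs := Finset.sum_mul_sq_le_sq_mul_sq (box k M)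
    (fun x => Real.exp (t * u x) * Real.sqrt (gw M x))
    (fun x => Real.exp (-(t * u (-x))) * Real.sqrt (gw M x))
  have e1 : ∀ x, Real.exp (t * u x) * Real.sqrt (gw M x) *
      (Real.exp (-(t * u (-x))) * Real.sqrt (gw M x))
      = Real.exp (t * (u x - u (-x))) * gw M x := by
    intro x
    have : Real.sqrt (gw M x) * Real.sqrt (gw M x) = gw M x := Real.mul_self_sqrt (gw_pos M x).le
    calc Real.exp (t * u x) * Real.sqrt (gw M x) * (Real.exp (-(t * u (-x))) * Real.sqrt (gw M x))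
        = (Real.exp (t * u x) * Real.exp (-(t * u (-x)))) *
            (Real.sqrt (gw M x) * Real.sqrt (gw M x)) := by ring
      _ = Real.exp (t * (u x - u (-x))) * gw M x := by
          rw [this, ← Real.exp_add]; congr 2; ring
  have e2 : ∀ x, (Real.exp (t * u x) * Real.sqrt (gw M x)) ^ 2
      = Real.exp ((2 * t) * u x) * gw M x := by
    intro x
    rw [mul_pow, Real.sq_sqrt (gw_pos M x).le, ← Real.exp_nat_mul]
    congr 2; push_cast; ring
  have e3 : ∀ x, (Real.exp (-(t * u (-x))) * Real.sqrt (gw M x)) ^ 2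
      = Real.exp (-((2 * t) * u (-x))) * gw M (-x) := by
    intro x
    rw [mul_pow, Real.sq_sqrt (gw_pos M x).le, ← Real.exp_nat_mul, gw_neg]
    congr 2; push_cast; ring
  simp only [e1, e2, e3] at hcs
  rw [sum_box_neg k M (fun y => Real.exp (-((2 * t) * u y)) * gw M y)] at hcs
  have hm := grid_mgf k M hM u L hu (2 * t) (by linarith)
  have h2 := hcs.trans hm
  have e4 : ((2 * t) ^ 2 * L ^ 2 * (M : ℝ) ^ 2 + errE k M) / 2
      = 2 * t ^ 2 * L ^ 2 * M ^ 2 + errE k M / 2 := by ring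
  rw [e4] at h2
  exact (pow_le_pow_iff_left₀
    (Finset.sum_nonneg fun x _ => (mul_pos (Real.exp_pos _) (gw_pos M x)).le)
    (mul_nonneg (Real.exp_pos _).le hZ) two_ne_zero).mp h2

/-- `t^q ≤ (q/e)^q e^t` -/
lemma rpow_le_exp (t q : ℝ) (ht : 0 ≤ t) (hq : 0 < q) :
    t ^ q ≤ (q / Real.exp 1) ^ q * Real.exp t := by
  have h1 : t / q ≤ Real.exp (t / q - 1) := by
    have := Real.add_one_le_exp (t / q - 1)
    linarith
  have h2 : (t / q) ^ q ≤ Real.exp (t / q - 1) ^ q :=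
    Real.rpow_le_rpow (div_nonneg ht hq.le) h1 hq.le
  rw [← Real.exp_mul, Real.div_rpow ht hq.le] at h2
  rw [Real.div_rpow hq.le (Real.exp_pos _).le, ← Real.exp_mul, one_mul]
  have hqq : 0 < q ^ q := Real.rpow_pos_of_pos hq _
  rw [div_le_iff₀ hqq] at h2
  have e : (t / q - 1) * q = t - q := by field_simp
  rw [e, Real.exp_sub] at h2
  calc t ^ q ≤ Real.exp t / Real.exp q * q ^ q := h2
    _ = q ^ q / Real.exp q * Real.exp t := by ring

lemma abs_rpow_le_exp (z t q : ℝ) (ht : 0 < t) (hq : 0 < q) :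
    |z| ^ q ≤ (q / (Real.exp 1 * t)) ^ q * (Real.exp (t * z) + Real.exp (t * (-z))) := by
  have h1 := rpow_le_exp (t * |z|) q (mul_nonneg ht.le (abs_nonneg _)) hq
  rw [Real.mul_rpow ht.le (abs_nonneg _)] at h1
  have htq : 0 < t ^ q := Real.rpow_pos_of_pos ht _
  have h2 : Real.exp (t * |z|) ≤ Real.exp (t * z) + Real.exp (t * (-z)) := by
    rcases abs_cases z with ⟨h, _⟩ | ⟨h, _⟩
    · rw [h]; linarith [Real.exp_pos (t * (-z))]
    · rw [h]; linarith [Real.exp_pos (t * z)]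
  have e : (q / (Real.exp 1 * t)) ^ q = (q / Real.exp 1) ^ q / t ^ q := by
    rw [← div_div, Real.div_rpow (div_nonneg hq.le (Real.exp_pos _).le) ht.le]
  rw [e, div_mul_eq_mul_div, le_div_iff₀ htq]
  calc |z| ^ q * t ^ q = t ^ q * |z| ^ q := by ring
    _ ≤ (q / Real.exp 1) ^ q * Real.exp (t * |z|) := h1
    _ ≤ _ := mul_le_mul_of_nonneg_left h2 (Real.rpow_nonneg (div_nonneg hq.le (Real.exp_pos _).le) _)

theorem grid_antipodal_moment (k M : ℕ) (hM : 1 ≤ M) (u : (Fin k → ℤ) → ℝ) (L : ℝ)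
    (hu : ∀ x ∈ box k M, ∀ y ∈ box k M, |u x - u y| ≤ L * Real.sqrt (nsq (x - y)))
    (t q : ℝ) (ht : 0 < t) (hq : 0 < q) :
    ∑ x ∈ box k M, |u x - u (-x)| ^ q * gw M x
      ≤ (q / (Real.exp 1 * t)) ^ q *
        (2 * (Real.exp (2 * t ^ 2 * L ^ 2 * M ^ 2 + errE k M / 2) * ∑ c ∈ box k M, gw M c)) := by
  have h1 := grid_antipodal_mgf k M hM u L
    (fun x hx y hy => (le_abs_self _).trans (hu x hx y hy)) t ht.le
  have h2 := grid_antipodal_mgf k M hM (fun x => -u x) L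
    (fun x hx y hy => by
      have := hu x hx y hy
      have h3 : -u x - -u y ≤ |u x - u y| := by
        have := neg_abs_le (u x - u y); linarith
      exact h3.trans this) t ht.le
  have hC : 0 ≤ (q / (Real.exp 1 * t)) ^ q :=
    Real.rpow_nonneg (div_nonneg hq.le (mul_pos (Real.exp_pos _) ht).le) _
  calc ∑ x ∈ box k M, |u x - u (-x)| ^ q * gw M x
      ≤ ∑ x ∈ box k M, (q / (Real.exp 1 * t)) ^ q *
          (Real.exp (t * (u x - u (-x))) * gw M x + Real.exp (t * (-u x - -u (-x))) * gw M x) := by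
        apply Finset.sum_le_sum
        intro x _
        have := abs_rpow_le_exp (u x - u (-x)) t q ht hq
        have e : -(u x - u (-x)) = -u x - -u (-x) := by ring
        rw [e] at this
        calc |u x - u (-x)| ^ q * gw M x
            ≤ ((q / (Real.exp 1 * t)) ^ q * (Real.exp (t * (u x - u (-x)))
                + Real.exp (t * (-u x - -u (-x))))) * gw M x :=
              mul_le_mul_of_nonneg_right this (gw_pos M x).le
          _ = _ := by ring
    _ = (q / (Real.exp 1 * t)) ^ q * (∑ x ∈ box k M, Real.exp (t * (u x - u (-x))) * gw M x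
          + ∑ x ∈ box k M, Real.exp (t * (-u x - -u (-x))) * gw M x) := by
        rw [← Finset.mul_sum, Finset.sum_add_distrib]
    _ ≤ _ := by
        apply mul_le_mul_of_nonneg_left _ hC
        linarith

end Vale.Agent.Lib.P249
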