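import Vale.Agent.Lib.P249.GridConc

/-!
Lower bound for the second moment of the discrete Gaussian weight on the box, and Jensen.
-/

namespace Vale.Agent.Lib.P249

open Finset

lemma Icc_succ (M : ℕ) : Finset.Icc (-((M + 1 : ℕ) : ℤ)) ((M + 1 : ℕ) : ℤ)
    = insert (((M + 1 : ℕ) : ℤ)) (insert (-((M + 1 : ℕ) : ℤ)) (Finset.Icc (-(M : ℤ)) (M : ℤ))) := by
  ext a
  simp only [Finset.mem_Icc, Finset.mem_insert]
  push_cast
  omega

lemma sum_Icc_sq (M : ℕ) :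
    ∑ a ∈ Finset.Icc (-(M : ℤ)) (M : ℤ), (a : ℝ) ^ 2 = M * (M + 1) * (2 * M + 1) / 3 := by
  induction M with
  | zero => simp
  | succ M ih =>
    rw [Icc_succ, Finset.sum_insert, Finset.sum_insert, ih]
    · push_cast; ring
    · simp only [Finset.mem_Icc]; push_cast; omega
    · simp only [Finset.mem_insert, Finset.mem_Icc]; push_cast; omega

lemma card_Icc_sym (M : ℕ) : ((Finset.Icc (-(M : ℤ)) (M : ℤ)).card : ℝ) = 2 * M + 1 := by
  rw [Int.card_Icc]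
  have : ((M : ℤ) + 1 - -(M : ℤ)).toNat = 2 * M + 1 := by omega
  rw [this]; push_cast; ring

/-- one-dimensional weight -/
noncomputable def rho (M : ℕ) (a : ℤ) : ℝ := Real.exp (-((a : ℝ) ^ 2) / (2 * (M : ℝ) ^ 2))

lemma rho_pos (M : ℕ) (a : ℤ) : 0 < rho M a := Real.exp_pos _

lemma rho_le_one (M : ℕ) (a : ℤ) : rho M a ≤ 1 := by
  rw [rho, Real.exp_le_one_iff]
  apply div_nonpos_of_nonpos_of_nonneg
  · have := sq_nonneg (a : ℝ); linarith
  · positivity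

lemma rho_ge (M : ℕ) (hM : 1 ≤ M) (a : ℤ) (ha : a ∈ Finset.Icc (-(M : ℤ)) (M : ℤ)) :
    Real.exp (-(1 / 2)) ≤ rho M a := by
  rw [rho]
  apply Real.exp_le_exp.mpr
  have hMr : (1 : ℝ) ≤ M := by exact_mod_cast hM
  rw [Finset.mem_Icc] at ha
  have h1 : -(M : ℝ) ≤ a := by have := ha.1; exact_mod_cast this
  have h2 : (a : ℝ) ≤ M := by have := ha.2; exact_mod_cast this
  have h3 : (a : ℝ) ^ 2 ≤ (M : ℝ) ^ 2 := by nlinarith
  rw [le_div_iff₀ (by positivity)]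
  linarith

/-- the variance constant -/
noncomputable def cvar (M : ℕ) : ℝ := Real.exp (-(1 / 2)) * (M : ℝ) ^ 2 / 3

lemma var_one (M : ℕ) (hM : 1 ≤ M) :
    cvar M * ∑ a ∈ Finset.Icc (-(M : ℤ)) (M : ℤ), rho M a
      ≤ ∑ a ∈ Finset.Icc (-(M : ℤ)) (M : ℤ), (a : ℝ) ^ 2 * rho M a := by
  have h1 : ∑ a ∈ Finset.Icc (-(M : ℤ)) (M : ℤ), rho M a ≤ 2 * M + 1 := by
    calc ∑ a ∈ Finset.Icc (-(M : ℤ)) (M : ℤ), rho M a
        ≤ ∑ a ∈ Finset.Icc (-(M : ℤ)) (M : ℤ), (1 : ℝ) :=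
          Finset.sum_le_sum fun a _ => rho_le_one M a
      _ = 2 * M + 1 := by rw [Finset.sum_const, nsmul_eq_mul, mul_one, card_Icc_sym]
  have h2 : Real.exp (-(1 / 2)) * (M * (M + 1) * (2 * M + 1) / 3)
      ≤ ∑ a ∈ Finset.Icc (-(M : ℤ)) (M : ℤ), (a : ℝ) ^ 2 * rho M a := by
    rw [← sum_Icc_sq, Finset.mul_sum]
    apply Finset.sum_le_sum
    intro a ha
    rw [mul_comm]
    exact mul_le_mul_of_nonneg_left (rho_ge M hM a ha) (sq_nonneg _)
  have he : 0 < Real.exp (-(1 / 2)) := Real.exp_pos _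
  have hM0 : (0 : ℝ) ≤ M := Nat.cast_nonneg _
  have h3 : cvar M * ∑ a ∈ Finset.Icc (-(M : ℤ)) (M : ℤ), rho M a ≤ cvar M * (2 * M + 1) :=
    mul_le_mul_of_nonneg_left h1 (by rw [cvar]; positivity)
  have h4 : cvar M * (2 * M + 1) ≤ Real.exp (-(1 / 2)) * (M * (M + 1) * (2 * M + 1) / 3) := by
    rw [cvar]
    have : (M : ℝ) ^ 2 / 3 * (2 * M + 1) ≤ M * (M + 1) * (2 * M + 1) / 3 := by nlinarith
    calc Real.exp (-(1 / 2)) * (M : ℝ) ^ 2 / 3 * (2 * M + 1)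
        = Real.exp (-(1 / 2)) * ((M : ℝ) ^ 2 / 3 * (2 * M + 1)) := by ring
      _ ≤ _ := mul_le_mul_of_nonneg_left this he.le
  linarith

lemma nsq_cons {k : ℕ} (a : ℤ) (y : Fin k → ℤ) :
    nsq (Fin.cons a y : Fin (k + 1) → ℤ) = (a : ℝ) ^ 2 + nsq y := by
  simp [nsq, Fin.sum_univ_succ]

lemma gw_cons {k : ℕ} (M : ℕ) (a : ℤ) (y : Fin k → ℤ) :
    gw M (Fin.cons a y : Fin (k + 1) → ℤ) = rho M a * gw M y := by
  rw [gw, gw, rho, nsq_cons, ← Real.exp_add]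
  congr 1
  ring

lemma sum_gw_succ (k M : ℕ) : ∑ x ∈ box (k + 1) M, gw M x
    = (∑ a ∈ Finset.Icc (-(M : ℤ)) (M : ℤ), rho M a) * ∑ y ∈ box k M, gw M y := by
  rw [sum_box_succ, Finset.sum_mul_sum]
  exact Finset.sum_congr rfl fun a _ => Finset.sum_congr rfl fun y _ => gw_cons M a y

theorem var_box (M : ℕ) (hM : 1 ≤ M) (k : ℕ) :
    k * cvar M * ∑ x ∈ box k M, gw M x ≤ ∑ x ∈ box k M, nsq x * gw M x := by
  induction k with
  | zero =>
    simp only [Nat.cast_zero, zero_mul]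
    exact Finset.sum_nonneg fun x _ => mul_nonneg (nsq_nonneg x) (gw_pos M x).le
  | succ k ih =>
    rw [sum_gw_succ, sum_box_succ]
    have e : ∑ a ∈ Finset.Icc (-(M : ℤ)) (M : ℤ), ∑ y ∈ box k M,
        nsq (Fin.cons a y : Fin (k + 1) → ℤ) * gw M (Fin.cons a y : Fin (k + 1) → ℤ)
        = (∑ a ∈ Finset.Icc (-(M : ℤ)) (M : ℤ), (a : ℝ) ^ 2 * rho M a) * (∑ y ∈ box k M, gw M y)
          + (∑ a ∈ Finset.Icc (-(M : ℤ)) (M : ℤ), rho M a) * ∑ y ∈ box k M, nsq y * gw M y := by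
      rw [Finset.sum_mul_sum, Finset.sum_mul_sum, ← Finset.sum_add_distrib]
      apply Finset.sum_congr rfl
      intro a _
      rw [← Finset.sum_add_distrib]
      apply Finset.sum_congr rfl
      intro y _
      rw [nsq_cons, gw_cons]
      ring
    rw [e]
    have hZ : 0 ≤ ∑ y ∈ box k M, gw M y := Finset.sum_nonneg fun c _ => (gw_pos M c).le
    have hR : 0 ≤ ∑ a ∈ Finset.Icc (-(M : ℤ)) (M : ℤ), rho M a :=
      Finset.sum_nonneg fun c _ => (rho_pos M c).le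
    have h1 := mul_le_mul_of_nonneg_right (var_one M hM) hZ
    have h2 := mul_le_mul_of_nonneg_left ih hR
    push_cast
    nlinarith

/-- Jensen: the `r`-th moment of `4 |x|^2` is at least `(4 k c)^r`. -/
theorem moment_lower (M : ℕ) (hM : 1 ≤ M) (k : ℕ) (r : ℝ) (hr : 1 ≤ r) :
    (4 * (k * cvar M)) ^ r * ∑ x ∈ box k M, gw M x
      ≤ ∑ x ∈ box k M, (4 * nsq x) ^ r * gw M x := by
  have hne : (box k M).Nonempty := by
    refine ⟨0, ?_⟩
    rw [mem_box]; intro i; simp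
  have hZ : 0 < ∑ x ∈ box k M, gw M x := Finset.sum_pos (fun c _ => gw_pos M c) hne
  obtain ⟨Z, hZdef⟩ : ∃ Z, Z = ∑ x ∈ box k M, gw M x := ⟨_, rfl⟩
  rw [← hZdef] at hZ ⊢
  have hj := Real.rpow_arith_mean_le_arith_mean_rpow (box k M) (fun x => gw M x / Z)
    (fun x => 4 * nsq x) (fun x _ => div_nonneg (gw_pos M x).le hZ.le)
    (by rw [← Finset.sum_div, ← hZdef]; exact div_self hZ.ne')
    (fun x _ => mul_nonneg (by norm_num) (nsq_nonneg x)) hr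
  have hv := var_box M hM k
  rw [← hZdef] at hv
  have hc0 : 0 ≤ cvar M := by rw [cvar]; positivity
  have h1 : 4 * (k * cvar M) ≤ ∑ x ∈ box k M, gw M x / Z * (4 * nsq x) := by
    have e : ∑ x ∈ box k M, gw M x / Z * (4 * nsq x)
        = 4 * (∑ x ∈ box k M, nsq x * gw M x) / Z := by
      rw [Finset.mul_sum, Finset.sum_div]
      apply Finset.sum_congr rfl
      intro x _
      ring
    rw [e, le_div_iff₀ hZ]
    linarith
  have h2 : (4 * (k * cvar M)) ^ r ≤ (∑ x ∈ box k M, gw M x / Z * (4 * nsq x)) ^ r :=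
    Real.rpow_le_rpow (by positivity) h1 (by linarith)
  have h3 := h2.trans hj
  have e2 : ∑ x ∈ box k M, gw M x / Z * (4 * nsq x) ^ r
      = (∑ x ∈ box k M, (4 * nsq x) ^ r * gw M x) / Z := by
    rw [Finset.sum_div]
    apply Finset.sum_congr rfl
    intro x _
    ring
  rw [e2, le_div_iff₀ hZ] at h3
  exact h3

end Vale.Agent.Lib.P249
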