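import Mathlib

/-!
Two facts on `Lp ℝ p μ`: pairwise `p`-th power differences of the canonical representatives are
integrable, and their integral is the `p`-th power of the distance.
-/

namespace Vale.Agent.Lib.P249

open MeasureTheory
open scoped ENNReal

variable {Ω : Type*} [MeasurableSpace Ω] {μ : Measure Ω} {p : ℝ≥0∞}

lemma Lp_integrable_abs_sub_rpow [Fact (1 ≤ p)] (hp : p ≠ ∞) (a b : Lp ℝ p μ) :
    Integrable (fun ω => |a ω - b ω| ^ p.toReal) μ := by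
  have hp0 : p ≠ 0 := (lt_of_lt_of_le one_pos (Fact.out : 1 ≤ p)).ne'
  have h := (Lp.memLp (a - b)).integrable_norm_rpow hp0 hp
  refine h.congr ?_
  filter_upwards [Lp.coeFn_sub a b] with ω hω
  rw [hω]
  simp [Real.norm_eq_abs]

lemma Lp_integral_abs_sub_rpow [Fact (1 ≤ p)] (hp : p ≠ ∞) (a b : Lp ℝ p μ) :
    ∫ ω, |a ω - b ω| ^ p.toReal ∂μ = dist a b ^ p.toReal := by
  have hp0 : p ≠ 0 := (lt_of_lt_of_le one_pos (Fact.out : 1 ≤ p)).ne'
  have hpr : 0 < p.toReal := ENNReal.toReal_pos hp0 hp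
  have h1 : ∫ ω, |a ω - b ω| ^ p.toReal ∂μ = ∫ ω, ‖(a - b : Lp ℝ p μ) ω‖ ^ p.toReal ∂μ := by
    apply integral_congr_ae
    filter_upwards [Lp.coeFn_sub a b] with ω hω
    rw [hω]
    simp [Real.norm_eq_abs]
  have hnonneg : 0 ≤ ∫ ω, ‖(a - b : Lp ℝ p μ) ω‖ ^ p.toReal ∂μ :=
    integral_nonneg fun ω => Real.rpow_nonneg (norm_nonneg _) _
  rw [h1, dist_eq_norm, Lp.norm_def, (Lp.memLp (a - b)).eLpNorm_eq_integral_rpow_norm hp0 hp,
    ENNReal.toReal_ofReal (Real.rpow_nonneg hnonneg _), ← Real.rpow_mul hnonneg,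
    inv_mul_cancel₀ hpr.ne', Real.rpow_one]

end Vale.Agent.Lib.P249
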