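import Vale.Agent.Lib.P249.Additive
import Vale.Agent.Lib.P249.LpFacts

/-!
Additive (`ε`-isometric) dimension reduction for incompressible subsets of `L_p`.
-/

namespace Vale.Agent.Lib.P249

open MeasureTheory
open scoped ENNReal

lemma dist_toLp_rpow {p : ℝ≥0∞} (hp0 : 0 < p.toReal) {m : ℕ} (c : Fin m → ℝ)
    (hc : ∀ l, 0 ≤ c l) (a b : Fin m → ℝ) :
    dist (WithLp.toLp p (fun l => (c l) ^ (1 / p.toReal) * a l))
        (WithLp.toLp p (fun l => (c l) ^ (1 / p.toReal) * b l)) ^ p.toReal =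
      ∑ l, c l * |a l - b l| ^ p.toReal := by
  have hsum0 : 0 ≤ ∑ l, c l * |a l - b l| ^ p.toReal :=
    Finset.sum_nonneg fun l _ => mul_nonneg (hc l) (Real.rpow_nonneg (abs_nonneg _) _)
  have h1 : dist (WithLp.toLp p (fun l => (c l) ^ (1 / p.toReal) * a l))
        (WithLp.toLp p (fun l => (c l) ^ (1 / p.toReal) * b l)) =
        (∑ l, c l * |a l - b l| ^ p.toReal) ^ (1 / p.toReal) := by
    rw [PiLp.dist_eq_sum hp0]
    congr 1
    apply Finset.sum_congr rfl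
    intro l _
    simp only [Real.dist_eq]
    rw [← mul_sub, abs_mul, Real.mul_rpow (abs_nonneg _) (abs_nonneg _),
      abs_of_nonneg (Real.rpow_nonneg (hc l) _), ← Real.rpow_mul (hc l)]
    rw [one_div, inv_mul_cancel₀ hp0.ne', Real.rpow_one]
  rw [h1, ← Real.rpow_mul hsum0, one_div, inv_mul_cancel₀ hp0.ne', Real.rpow_one]

theorem incompressible {Ω : Type*} [MeasurableSpace Ω] (μ : Measure Ω) (p : ℝ≥0∞)
    [Fact (1 ≤ p)] (hp : p ≠ ∞) (n : ℕ) (hn : 2 ≤ n) (x : Fin n → Lp ℝ p μ) (K ε : ℝ)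
    (hK : 0 < K) (hε : 0 < ε)
    (hmax : eLpNorm (fun ω => ⨆ i, |x i ω|) p μ ≤ ENNReal.ofReal K) :
    ∃ d : ℕ, (d : ℝ) ≤ 14 * (2 * K) ^ (2 * p.toReal) * Real.log n / ε ^ 2 ∧
      ∃ y : Fin n → PiLp p (fun _ : Fin d => ℝ), ∀ i j,
        |dist (y i) (y j) ^ p.toReal - dist (x i) (x j) ^ p.toReal| ≤ ε := by
  have hp0' : p ≠ 0 := (lt_of_lt_of_le one_pos (Fact.out : 1 ≤ p)).ne'
  have hq0 : 0 < p.toReal := ENNReal.toReal_pos hp0' hp
  obtain ⟨q, hq⟩ : ∃ q, q = p.toReal := ⟨_, rfl⟩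
  have hne : Nonempty (Fin n) := ⟨⟨0, by omega⟩⟩
  have hn2 : (2 : ℝ) ≤ (n : ℝ) := by exact_mod_cast hn
  have hlogn : (1 / 2 : ℝ) < Real.log n := by
    have h1 : (0.6931471803 : ℝ) < Real.log 2 := Real.log_two_gt_d9
    have h2 : Real.log 2 ≤ Real.log n := Real.log_le_log (by norm_num) hn2
    linarith
  -- the maximal function
  obtain ⟨M, hM⟩ : ∃ M : Ω → ℝ, M = fun ω => ⨆ i, |x i ω| := ⟨_, rfl⟩
  rw [← hM] at hmax
  have hMmeas : Measurable M := by
    rw [hM]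
    apply Measurable.iSup
    intro i
    exact (Lp.stronglyMeasurable (x i)).measurable.abs
  have hxM : ∀ i ω, |x i ω| ≤ M ω := by
    intro i ω
    rw [hM]
    exact le_ciSup (f := fun i => |x i ω|) (Finite.bddAbove_range _) i
  have hM0 : ∀ ω, 0 ≤ M ω := fun ω => (abs_nonneg _).trans (hxM ⟨0, by omega⟩ ω)
  have hMmem : MemLp M p μ :=
    ⟨hMmeas.aestronglyMeasurable, lt_of_le_of_lt hmax ENNReal.ofReal_lt_top⟩
  have hMint : Integrable (fun ω => M ω ^ p.toReal) μ := by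
    have := hMmem.integrable_norm_rpow hp0' hp
    refine this.congr ?_
    filter_upwards with ω
    rw [Real.norm_eq_abs, abs_of_nonneg (hM0 ω)]
  obtain ⟨A, hA⟩ : ∃ A, A = ∫ ω, M ω ^ p.toReal ∂μ := ⟨_, rfl⟩
  have hA0 : 0 ≤ A := hA ▸ integral_nonneg fun ω => Real.rpow_nonneg (hM0 ω) _
  have hAK : A ≤ K ^ p.toReal := by
    have h1 := hMmem.eLpNorm_eq_integral_rpow_norm hp0' hp
    rw [h1] at hmax
    have h2 := (ENNReal.ofReal_le_ofReal_iff hK.le).mp hmax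
    have h3 : ∫ a, ‖M a‖ ^ p.toReal ∂μ = A := by
      rw [hA]
      apply integral_congr_ae
      filter_upwards with ω
      rw [Real.norm_eq_abs, abs_of_nonneg (hM0 ω)]
    rw [h3] at h2
    calc A = (A ^ p.toReal⁻¹) ^ p.toReal := by
          rw [← Real.rpow_mul hA0, inv_mul_cancel₀ hq0.ne', Real.rpow_one]
      _ ≤ K ^ p.toReal := Real.rpow_le_rpow (Real.rpow_nonneg hA0 _) h2 hq0.le
  have h2q : 0 < (2 : ℝ) ^ p.toReal := Real.rpow_pos_of_pos (by norm_num) _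
  have hhM : ∀ (e : Fin n × Fin n) ω, |x e.1 ω - x e.2 ω| ^ p.toReal ≤
      (2 : ℝ) ^ p.toReal * M ω ^ p.toReal := by
    intro e ω
    rw [← Real.mul_rpow (by norm_num) (hM0 ω)]
    apply Real.rpow_le_rpow (abs_nonneg _) _ hq0.le
    calc |x e.1 ω - x e.2 ω| ≤ |x e.1 ω| + |x e.2 ω| := abs_sub _ _
      _ ≤ 2 * M ω := by linarith [hxM e.1 ω, hxM e.2 ω]
  have hdistA : ∀ i j, dist (x i) (x j) ^ p.toReal ≤ (2 : ℝ) ^ p.toReal * A := by
    intro i j
    rw [← Lp_integral_abs_sub_rpow hp, hA, ← integral_const_mul]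
    exact integral_mono (Lp_integrable_abs_sub_rpow hp _ _) (hMint.const_mul _)
      (fun ω => hhM (i, j) ω)
  have hbound0 : 0 ≤ 14 * (2 * K) ^ (2 * p.toReal) * Real.log n / ε ^ 2 := by
    have : 0 ≤ (2 * K) ^ (2 * p.toReal) := Real.rpow_nonneg (by positivity) _
    have h3 : 0 ≤ Real.log n := by linarith
    positivity
  by_cases hcase : (2 : ℝ) ^ p.toReal * A ≤ ε
  · refine ⟨0, by simpa using hbound0, fun _ => 0, fun i j => ?_⟩
    rw [dist_self, Real.zero_rpow hq0.ne', zero_sub, abs_neg,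
      abs_of_nonneg (Real.rpow_nonneg dist_nonneg _)]
    exact (hdistA i j).trans hcase
  have hcase' : ε < (2 : ℝ) ^ p.toReal * A := not_le.mp hcase
  obtain ⟨B, hB⟩ : ∃ B, B = (2 : ℝ) ^ p.toReal * A := ⟨_, rfl⟩
  rw [← hB] at hcase'
  have hB0 : 0 < B := hε.trans hcase'
  have hApos : 0 < A := by
    rcases eq_or_lt_of_le hA0 with h | h
    · rw [← h, mul_zero] at hB; linarith
    · exact h
  have hBK : B ≤ (2 * K) ^ p.toReal := by
    rw [hB, Real.mul_rpow (by norm_num) hK.le]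
    exact mul_le_mul_of_nonneg_left hAK h2q.le
  have hB2 : B ^ 2 ≤ (2 * K) ^ (2 * p.toReal) := by
    have h1 : (2 * K) ^ (2 * p.toReal) = ((2 * K) ^ p.toReal) ^ 2 := by
      rw [mul_comm 2 p.toReal, Real.rpow_mul (by positivity)]
      norm_cast
    rw [h1]
    exact pow_le_pow_left₀ hB0.le hBK 2
  have hL : Real.log (2 * (Fintype.card (Fin n × Fin n) : ℝ)) ≤ 3 * Real.log n := by
    have hcard : (Fintype.card (Fin n × Fin n) : ℝ) = (n : ℝ) ^ 2 := by
      simp [Fintype.card_prod]; ring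
    rw [hcard, Real.log_mul (by norm_num) (by positivity), Real.log_pow]
    have h2 : Real.log 2 ≤ Real.log n := Real.log_le_log (by norm_num) hn2
    push_cast
    linarith
  obtain ⟨m, hm⟩ : ∃ m : ℕ, m = ⌈4 * B ^ 2 * (3 * Real.log n) / ε ^ 2⌉₊ := ⟨_, rfl⟩
  have hne2 : Nonempty (Fin n × Fin n) := ⟨(⟨0, by omega⟩, ⟨0, by omega⟩)⟩
  obtain ⟨ω, c, hc, hω⟩ := sampling_add μ
    (h := fun (e : Fin n × Fin n) ω => |x e.1 ω - x e.2 ω| ^ p.toReal)
    (s := fun ω => M ω ^ p.toReal / A) hB0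
    (fun e ω => Real.rpow_nonneg (abs_nonneg _) _)
    (fun e ω => by
      have : B * (M ω ^ p.toReal / A) = (2 : ℝ) ^ p.toReal * M ω ^ p.toReal := by
        rw [hB]; field_simp
      rw [this]; exact hhM e ω)
    (fun e => Lp_integrable_abs_sub_rpow hp _ _)
    (hMint.div_const _)
    (by rw [integral_div, ← hA, div_self hApos.ne'])
    (fun ω => div_nonneg (Real.rpow_nonneg (hM0 ω) _) hA0)
    hL (by linarith) hε (by linarith) m (by rw [hm]; exact Nat.le_ceil _)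
  refine ⟨m, ?_, fun i => WithLp.toLp p (fun l => (c l) ^ (1 / p.toReal) * x i (ω l)),
    fun i j => ?_⟩
  · have hceil := Nat.ceil_lt_add_one (a := 4 * B ^ 2 * (3 * Real.log n) / ε ^ 2)
      (by have : 0 ≤ Real.log n := by linarith
          positivity)
    rw [← hm] at hceil
    have hε2 : 0 < ε ^ 2 := by positivity
    have hone : 1 ≤ 2 * B ^ 2 * Real.log n / ε ^ 2 := by
      rw [le_div_iff₀ hε2]
      have h1 : ε ^ 2 ≤ B ^ 2 := pow_le_pow_left₀ hε.le hcase'.le 2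
      nlinarith
    calc (m : ℝ) ≤ 4 * B ^ 2 * (3 * Real.log n) / ε ^ 2 + 1 := hceil.le
      _ ≤ 4 * B ^ 2 * (3 * Real.log n) / ε ^ 2 + 2 * B ^ 2 * Real.log n / ε ^ 2 := by linarith
      _ = 14 * B ^ 2 * Real.log n / ε ^ 2 := by ring
      _ ≤ 14 * (2 * K) ^ (2 * p.toReal) * Real.log n / ε ^ 2 := by
          apply div_le_div_of_nonneg_right _ hε2.le
          apply mul_le_mul_of_nonneg_right _ (by linarith)
          linarith
  · rw [dist_toLp_rpow hq0 c hc, ← Lp_integral_abs_sub_rpow hp]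
    exact hω (i, j)

end Vale.Agent.Lib.P249
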