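import Vale.Agent.Lib.P249.GridConc

/-!
Khintchine's inequalities for Rademacher sums (finite sums over sign vectors).
-/

namespace Vale.Agent.Lib.P249

open Finset

/-- sign of a Boolean -/
def sg (b : Bool) : ℝ := if b then 1 else -1

/-- Rademacher sum -/
noncomputable def rad {k : ℕ} (a : Fin k → ℝ) (ε : Fin k → Bool) : ℝ := ∑ i, a i * sg (ε i)

lemma sum_bool_succ (k : ℕ) (F : (Fin (k + 1) → Bool) → ℝ) :
    ∑ ε : Fin (k + 1) → Bool, F ε
      = ∑ ε : Fin k → Bool, (F (Fin.cons true ε) + F (Fin.cons false ε)) := by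
  rw [← (Fin.consEquiv (fun _ : Fin (k + 1) => Bool)).sum_comp, Fintype.sum_prod_type,
    Fintype.sum_bool, ← Finset.sum_add_distrib]
  rfl

lemma rad_cons {k : ℕ} (a : Fin (k + 1) → ℝ) (b : Bool) (ε : Fin k → Bool) :
    rad a (Fin.cons b ε) = a 0 * sg b + rad (Fin.tail a) ε := by
  simp [rad, Fin.sum_univ_succ, Fin.tail]

lemma sum_rad_sq : ∀ (k : ℕ) (a : Fin k → ℝ),
    ∑ ε : Fin k → Bool, (rad a ε) ^ 2 = 2 ^ k * ∑ i, a i ^ 2 := by
  intro k
  induction k with
  | zero => intro a; simp [rad]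
  | succ k ih =>
    intro a
    rw [sum_bool_succ]
    have e : ∀ ε : Fin k → Bool, (rad a (Fin.cons true ε)) ^ 2 + (rad a (Fin.cons false ε)) ^ 2
        = 2 * a 0 ^ 2 + 2 * (rad (Fin.tail a) ε) ^ 2 := by
      intro ε
      rw [rad_cons, rad_cons]
      simp only [sg]
      simp
      ring
    simp only [e]
    rw [Finset.sum_add_distrib, ← Finset.mul_sum, ← Finset.mul_sum, ih, Fin.sum_univ_succ]
    simp only [Finset.sum_const, Finset.card_univ, Fintype.card_pi, Fintype.card_bool,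
      Finset.prod_const, Fintype.card_fin, nsmul_eq_mul, Fin.tail]
    push_cast
    ring

lemma sum_exp_rad_le : ∀ (k : ℕ) (a : Fin k → ℝ) (t : ℝ),
    ∑ ε : Fin k → Bool, Real.exp (t * rad a ε) ≤ 2 ^ k * Real.exp (t ^ 2 * (∑ i, a i ^ 2) / 2) := by
  intro k
  induction k with
  | zero => intro a t; simp [rad]
  | succ k ih =>
    intro a t
    rw [sum_bool_succ]
    have e : ∀ ε : Fin k → Bool, Real.exp (t * rad a (Fin.cons true ε))
        + Real.exp (t * rad a (Fin.cons false ε))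
        = (2 * Real.cosh (t * a 0)) * Real.exp (t * rad (Fin.tail a) ε) := by
      intro ε
      rw [rad_cons, rad_cons, Real.cosh_eq]
      simp only [sg]
      simp only [if_true, Bool.false_eq_true, if_false, mul_one, mul_neg, mul_add, Real.exp_add]
      ring
    simp only [e]
    rw [← Finset.mul_sum]
    have h1 := ih (Fin.tail a) t
    have h2 : Real.cosh (t * a 0) ≤ Real.exp ((t * a 0) ^ 2 / 2) := Real.cosh_le_exp_half_sq _
    have h3 : 0 ≤ Real.cosh (t * a 0) := (Real.cosh_pos _).le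
    calc 2 * Real.cosh (t * a 0) * ∑ ε : Fin k → Bool, Real.exp (t * rad (Fin.tail a) ε)
        ≤ 2 * Real.exp ((t * a 0) ^ 2 / 2) *
            (2 ^ k * Real.exp (t ^ 2 * (∑ i, (Fin.tail a) i ^ 2) / 2)) := by
          apply mul_le_mul (by linarith) h1
            (Finset.sum_nonneg fun _ _ => (Real.exp_pos _).le) (by positivity)
      _ = 2 ^ (k + 1) * Real.exp (t ^ 2 * (∑ i, a i ^ 2) / 2) := by
          rw [Fin.sum_univ_succ]
          have : Real.exp (t ^ 2 * (a 0 ^ 2 + ∑ i : Fin k, a i.succ ^ 2) / 2)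
              = Real.exp ((t * a 0) ^ 2 / 2) * Real.exp (t ^ 2 * (∑ i, (Fin.tail a) i ^ 2) / 2) := by
            rw [← Real.exp_add]
            congr 1
            simp only [Fin.tail]
            ring
          rw [this]
          ring

lemma rad_neg {k : ℕ} (a : Fin k → ℝ) (ε : Fin k → Bool) : rad (-a) ε = -rad a ε := by
  simp [rad]

theorem khin_lower (k : ℕ) (a : Fin k → ℝ) (q : ℝ) (hq : 2 ≤ q) :
    2 ^ k * (∑ i, a i ^ 2) ^ (q / 2) ≤ ∑ ε : Fin k → Bool, |rad a ε| ^ q := by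
  have h2k : (0 : ℝ) < 2 ^ k := by positivity
  have hj := Real.rpow_arith_mean_le_arith_mean_rpow (Finset.univ : Finset (Fin k → Bool))
    (fun _ => 1 / 2 ^ k) (fun ε => (rad a ε) ^ 2) (fun _ _ => by positivity)
    (by
      simp only [Finset.sum_const, Finset.card_univ, Fintype.card_pi, Fintype.card_bool,
        Finset.prod_const, Fintype.card_fin, nsmul_eq_mul]
      push_cast
      field_simp)
    (fun _ _ => sq_nonneg _) (p := q / 2) (by linarith)
  rw [← Finset.mul_sum, ← Finset.mul_sum, sum_rad_sq] at hj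
  have e1 : 1 / 2 ^ k * (2 ^ k * ∑ i, a i ^ 2) = ∑ i, a i ^ 2 := by field_simp
  rw [e1] at hj
  have e2 : ∀ ε : Fin k → Bool, ((rad a ε) ^ 2) ^ (q / 2) = |rad a ε| ^ q := by
    intro ε
    rw [← sq_abs, ← Real.rpow_natCast, ← Real.rpow_mul (abs_nonneg _)]
    congr 1
    push_cast
    ring
  simp only [e2] at hj
  calc 2 ^ k * (∑ i, a i ^ 2) ^ (q / 2)
      ≤ 2 ^ k * (1 / 2 ^ k * ∑ ε : Fin k → Bool, |rad a ε| ^ q) :=
        mul_le_mul_of_nonneg_left hj h2k.le
    _ = _ := by field_simp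

theorem khin_upper (k : ℕ) (a : Fin k → ℝ) (q : ℝ) (hq : 0 < q) :
    ∑ ε : Fin k → Bool, |rad a ε| ^ q
      ≤ 2 ^ (k + 1) * (Real.sqrt q * Real.exp (-(1 / 2)) * Real.sqrt (∑ i, a i ^ 2)) ^ q := by
  obtain ⟨A, hA⟩ : ∃ A, A = ∑ i, a i ^ 2 := ⟨_, rfl⟩
  have hA0 : 0 ≤ A := hA ▸ Finset.sum_nonneg fun _ _ => sq_nonneg _
  rw [← hA]
  rcases hA0.eq_or_lt with h0 | hpos
  · have ha : ∀ i, a i = 0 := by
      intro i
      have := (Finset.sum_eq_zero_iff_of_nonneg (fun i _ => sq_nonneg (a i))).mp (hA ▸ h0.symm) i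
        (Finset.mem_univ _)
      exact pow_eq_zero_iff (two_ne_zero) |>.mp this
    have : ∀ ε : Fin k → Bool, |rad a ε| ^ q = 0 := by
      intro ε
      have : rad a ε = 0 := by simp [rad, ha]
      rw [this, abs_zero, Real.zero_rpow hq.ne']
    simp only [this, Finset.sum_const_zero]
    positivity
  · have hsA : 0 < Real.sqrt A := Real.sqrt_pos.mpr hpos
    have hsq : 0 < Real.sqrt q := Real.sqrt_pos.mpr hq
    obtain ⟨t, ht⟩ : ∃ t, t = Real.sqrt q / Real.sqrt A := ⟨_, rfl⟩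
    have htpos : 0 < t := ht ▸ div_pos hsq hsA
    have hC : 0 ≤ (q / (Real.exp 1 * t)) ^ q :=
      Real.rpow_nonneg (div_nonneg hq.le (mul_pos (Real.exp_pos _) htpos).le) _
    have h1 := sum_exp_rad_le k a t
    have h2 := sum_exp_rad_le k (-a) t
    simp only [Pi.neg_apply, neg_sq, rad_neg] at h2
    rw [← hA] at h1 h2
    have ht2 : t ^ 2 * A / 2 = q / 2 := by
      rw [ht, div_pow, Real.sq_sqrt hq.le, Real.sq_sqrt hpos.le]
      field_simp
    rw [ht2] at h1 h2
    calc ∑ ε : Fin k → Bool, |rad a ε| ^ q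
        ≤ ∑ ε : Fin k → Bool, (q / (Real.exp 1 * t)) ^ q *
            (Real.exp (t * rad a ε) + Real.exp (t * -rad a ε)) :=
          Finset.sum_le_sum fun ε _ => abs_rpow_le_exp _ t q htpos hq
      _ = (q / (Real.exp 1 * t)) ^ q * (∑ ε : Fin k → Bool, Real.exp (t * rad a ε)
            + ∑ ε : Fin k → Bool, Real.exp (t * -rad a ε)) := by
          rw [← Finset.mul_sum, Finset.sum_add_distrib]
      _ ≤ (q / (Real.exp 1 * t)) ^ q * (2 ^ k * Real.exp (q / 2) + 2 ^ k * Real.exp (q / 2)) :=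
          mul_le_mul_of_nonneg_left (add_le_add h1 h2) hC
      _ = 2 ^ (k + 1) * ((q / (Real.exp 1 * t)) ^ q * Real.exp (q / 2)) := by ring
      _ = 2 ^ (k + 1) * (Real.sqrt q * Real.exp (-(1 / 2)) * Real.sqrt A) ^ q := by
          congr 1
          have e1 : Real.exp (q / 2) = Real.exp (1 / 2) ^ q := by
            rw [← Real.exp_mul]; congr 1; ring
          rw [e1, ← Real.mul_rpow (div_nonneg hq.le (mul_pos (Real.exp_pos _) htpos).le)
            (Real.exp_pos _).le]
          congr 1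
          rw [ht]
          have e2 : Real.exp (-(1 / 2)) = Real.exp (1 / 2) / Real.exp 1 := by
            rw [← Real.exp_sub]; congr 1; norm_num
          rw [e2]
          have e3 : q = Real.sqrt q * Real.sqrt q := (Real.mul_self_sqrt hq.le).symm
          field_simp
          rw [Real.sq_sqrt hq.le]

end Vale.Agent.Lib.P249
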