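import Vale.Agent.Lib.P249.GridVar
import Vale.Agent.Lib.P249.Khin

/-!
Lower bound for the dimension of `ℓ_p^d` hosting a low-distortion copy of the Rademacher image
of the integer box.
-/

namespace Vale.Agent.Lib.P249

open Finset
open scoped ENNReal

lemma piLp_dist_rpow {p : ℝ≥0∞} (hp0 : 0 < p.toReal) {ι : Type*} [Fintype ι]
    (u v : PiLp p (fun _ : ι => ℝ)) :
    dist u v ^ p.toReal = ∑ i, |u i - v i| ^ p.toReal := by
  have hsum0 : 0 ≤ ∑ i, |u i - v i| ^ p.toReal :=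
    Finset.sum_nonneg fun l _ => Real.rpow_nonneg (abs_nonneg _) _
  rw [PiLp.dist_eq_sum hp0]
  simp only [Real.dist_eq]
  rw [← Real.rpow_mul hsum0, one_div, inv_mul_cancel₀ hp0.ne', Real.rpow_one]

lemma piLp_abs_le_dist {p : ℝ≥0∞} [Fact (1 ≤ p)] {ι : Type*} [Fintype ι]
    (u v : PiLp p (fun _ : ι => ℝ)) (j : ι) : |u j - v j| ≤ dist u v := by
  have := PiLp.norm_apply_le (u - v) j
  rw [dist_eq_norm]
  simpa [Real.norm_eq_abs] using this

/-- the Rademacher image of an integer vector in `ℓ_p` over sign vectors -/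
noncomputable def phi (p : ℝ≥0∞) {k : ℕ} (x : Fin k → ℤ) :
    PiLp p (fun _ : Fin k → Bool => ℝ) :=
  WithLp.toLp p (fun ε => rad (fun i => (x i : ℝ)) ε)

lemma phi_dist_rpow {p : ℝ≥0∞} (hp0 : 0 < p.toReal) {k : ℕ} (x y : Fin k → ℤ) :
    dist (phi p x) (phi p y) ^ p.toReal
      = ∑ ε : Fin k → Bool, |rad (fun i => ((x - y) i : ℝ)) ε| ^ p.toReal := by
  rw [piLp_dist_rpow hp0]
  apply Finset.sum_congr rfl
  intro ε _
  congr 2
  simp only [phi, rad, Pi.sub_apply, Int.cast_sub, sub_mul, Finset.sum_sub_distrib]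

lemma nsq_eq {k : ℕ} (x : Fin k → ℤ) : ∑ i, ((x i : ℝ)) ^ 2 = nsq x := rfl

lemma phi_dist_le {p : ℝ≥0∞} [Fact (1 ≤ p)] (hp0 : 0 < p.toReal) {k : ℕ} (x y : Fin k → ℤ) :
    dist (phi p x) (phi p y) ≤ ((2 : ℝ) ^ (k + 1)) ^ (1 / p.toReal) *
      (Real.sqrt p.toReal * Real.exp (-(1 / 2))) * Real.sqrt (nsq (x - y)) := by
  have h1 := khin_upper k (fun i => ((x - y) i : ℝ)) p.toReal hp0
  rw [← phi_dist_rpow hp0, nsq_eq] at h1
  have h2 : (0 : ℝ) ≤ (2 : ℝ) ^ (k + 1) := by positivity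
  have e : (2 : ℝ) ^ (k + 1) * (Real.sqrt p.toReal * Real.exp (-(1 / 2)) *
      Real.sqrt (nsq (x - y))) ^ p.toReal
      = (((2 : ℝ) ^ (k + 1)) ^ (1 / p.toReal) *
      (Real.sqrt p.toReal * Real.exp (-(1 / 2))) * Real.sqrt (nsq (x - y))) ^ p.toReal := by
    rw [mul_assoc (((2 : ℝ) ^ (k + 1)) ^ (1 / p.toReal)),
      Real.mul_rpow (Real.rpow_nonneg h2 _) (by positivity), ← Real.rpow_mul h2,
      one_div_mul_cancel hp0.ne', Real.rpow_one]
  rw [e] at h1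
  exact (Real.rpow_le_rpow_iff dist_nonneg (by positivity) hp0).mp h1

lemma phi_antipodal_ge {p : ℝ≥0∞} (hp2 : 2 ≤ p.toReal) {k : ℕ} (x : Fin k → ℤ) :
    2 ^ k * (4 * nsq x) ^ (p.toReal / 2) ≤ dist (phi p x) (phi p (-x)) ^ p.toReal := by
  rw [phi_dist_rpow (by linarith)]
  have h1 := khin_lower k (fun i => ((x - -x) i : ℝ)) p.toReal hp2
  have e : ∑ i, (((x - -x) i : ℤ) : ℝ) ^ 2 = 4 * nsq x := by
    rw [nsq, Finset.mul_sum]
    apply Finset.sum_congr rfl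
    intro i _
    simp only [Pi.sub_apply, Pi.neg_apply, Int.cast_sub, Int.cast_neg]
    ring
  rw [e] at h1
  exact h1


lemma scal_id (q N : ℝ) (hq : 0 < q) (hN : 0 < N) :
    (q / (Real.exp 1 * (Real.sqrt q / N))) ^ q * Real.exp (q / 2)
      = (N * (Real.sqrt q * Real.exp (-(1 / 2)))) ^ q := by
  have hsq : 0 < Real.sqrt q := Real.sqrt_pos.mpr hq
  have e1 : Real.exp (q / 2) = Real.exp (1 / 2) ^ q := by
    rw [← Real.exp_mul]; congr 1; ring
  rw [e1, ← Real.mul_rpow (by positivity) (Real.exp_pos _).le]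
  congr 1
  have e2 : Real.exp (-(1 / 2)) = Real.exp (1 / 2) / Real.exp 1 := by
    rw [← Real.exp_sub]; congr 1; norm_num
  rw [e2]
  field_simp
  rw [Real.sq_sqrt hq.le]

theorem upper_sum {p : ℝ≥0∞} [Fact (1 ≤ p)] (hp0 : 0 < p.toReal) (k M d : ℕ) (hM : 1 ≤ M)
    (F : (Fin k → ℤ) → PiLp p (fun _ : Fin d => ℝ)) (L : ℝ) (hL : 0 < L)
    (hF : ∀ x ∈ box k M, ∀ y ∈ box k M, dist (F x) (F y) ≤ L * Real.sqrt (nsq (x - y))) :
    ∑ x ∈ box k M, dist (F x) (F (-x)) ^ p.toReal * gw M x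
      ≤ d * (2 * Real.exp (errE k M / 2) *
        (2 * L * M * (Real.sqrt p.toReal * Real.exp (-(1 / 2)))) ^ p.toReal *
          ∑ c ∈ box k M, gw M c) := by
  have hMr : (0 : ℝ) < M := by exact_mod_cast hM
  obtain ⟨q, hq⟩ : ∃ q, q = p.toReal := ⟨_, rfl⟩
  rw [← hq] at hp0 ⊢
  have hN : 0 < 2 * L * M := by positivity
  have hsq : 0 < Real.sqrt q := Real.sqrt_pos.mpr hp0
  have hj : ∀ j : Fin d, ∑ x ∈ box k M, |F x j - F (-x) j| ^ q * gw M x
      ≤ 2 * Real.exp (errE k M / 2) * (2 * L * M * (Real.sqrt q * Real.exp (-(1 / 2)))) ^ q *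
          ∑ c ∈ box k M, gw M c := by
    intro j
    have h1 := grid_antipodal_moment k M hM (fun x => F x j) L
      (fun x hx y hy => (piLp_abs_le_dist (F x) (F y) j).trans (hF x hx y hy))
      (Real.sqrt q / (2 * L * M)) q (div_pos hsq hN) hp0
    have e1 : 2 * (Real.sqrt q / (2 * L * M)) ^ 2 * L ^ 2 * (M : ℝ) ^ 2 = q / 2 := by
      rw [div_pow, Real.sq_sqrt hp0.le]
      field_simp
    rw [e1, Real.exp_add] at h1
    have e2 := scal_id q (2 * L * M) hp0 hN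
    calc ∑ x ∈ box k M, |F x j - F (-x) j| ^ q * gw M x
        ≤ (q / (Real.exp 1 * (Real.sqrt q / (2 * L * M)))) ^ q *
          (2 * (Real.exp (q / 2) * Real.exp (errE k M / 2) * ∑ c ∈ box k M, gw M c)) := h1
      _ = 2 * Real.exp (errE k M / 2) *
          ((q / (Real.exp 1 * (Real.sqrt q / (2 * L * M)))) ^ q * Real.exp (q / 2)) *
          ∑ c ∈ box k M, gw M c := by ring
      _ = _ := by rw [e2]
  calc ∑ x ∈ box k M, dist (F x) (F (-x)) ^ q * gw M x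
      = ∑ x ∈ box k M, ∑ j : Fin d, |F x j - F (-x) j| ^ q * gw M x := by
        apply Finset.sum_congr rfl
        intro x _
        rw [hq, piLp_dist_rpow (hq ▸ hp0), Finset.sum_mul]
    _ = ∑ j : Fin d, ∑ x ∈ box k M, |F x j - F (-x) j| ^ q * gw M x := Finset.sum_comm
    _ ≤ ∑ j : Fin d, 2 * Real.exp (errE k M / 2) *
          (2 * L * M * (Real.sqrt q * Real.exp (-(1 / 2)))) ^ q * ∑ c ∈ box k M, gw M c :=
        Finset.sum_le_sum fun j _ => hj j
    _ = _ := by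
        rw [Finset.sum_const, Finset.card_univ, Fintype.card_fin, nsmul_eq_mul]

theorem lower_sum {p : ℝ≥0∞} [Fact (1 ≤ p)] (hp2 : 2 ≤ p.toReal) (k M d : ℕ) (hM : 1 ≤ M)
    (F : (Fin k → ℤ) → PiLp p (fun _ : Fin d => ℝ)) (s : ℝ) (hs : 0 < s)
    (hF : ∀ x ∈ box k M, ∀ y ∈ box k M, s * dist (phi p x) (phi p y) ≤ dist (F x) (F y)) :
    s ^ p.toReal * (2 ^ k * ((4 * (k * cvar M)) ^ (p.toReal / 2) * ∑ c ∈ box k M, gw M c))
      ≤ ∑ x ∈ box k M, dist (F x) (F (-x)) ^ p.toReal * gw M x := by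
  have hp0 : 0 < p.toReal := by linarith
  have hsq : 0 ≤ s ^ p.toReal := Real.rpow_nonneg hs.le _
  have h1 := moment_lower M hM k (p.toReal / 2) (by linarith)
  calc s ^ p.toReal * (2 ^ k * ((4 * (k * cvar M)) ^ (p.toReal / 2) * ∑ c ∈ box k M, gw M c))
      ≤ s ^ p.toReal * (2 ^ k * ∑ x ∈ box k M, (4 * nsq x) ^ (p.toReal / 2) * gw M x) := by
        apply mul_le_mul_of_nonneg_left _ hsq
        exact mul_le_mul_of_nonneg_left h1 (by positivity)
    _ = ∑ x ∈ box k M, s ^ p.toReal * (2 ^ k * (4 * nsq x) ^ (p.toReal / 2)) * gw M x := by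
        rw [Finset.mul_sum, Finset.mul_sum]
        apply Finset.sum_congr rfl
        intro x _
        ring
    _ ≤ _ := by
        apply Finset.sum_le_sum
        intro x hx
        apply mul_le_mul_of_nonneg_right _ (gw_pos M x).le
        have h2 := phi_antipodal_ge (p := p) hp2 x
        have h3 := hF x hx (-x) (neg_mem_box hx)
        have h4 : (s * dist (phi p x) (phi p (-x))) ^ p.toReal ≤ dist (F x) (F (-x)) ^ p.toReal :=
          Real.rpow_le_rpow (mul_nonneg hs.le dist_nonneg) h3 hp0.le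
        rw [Real.mul_rpow hs.le dist_nonneg] at h4
        exact (mul_le_mul_of_nonneg_left h2 hsq).trans h4

end Vale.Agent.Lib.P249
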