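import Vale.Agent.Lib.P249.LowerCore

/-!
Final algebra for the lower bound.
-/

namespace Vale.Agent.Lib.P249

open Finset
open scoped ENNReal

lemma exp_num1 : 3 * Real.exp (-2) ≤ Real.exp (-(1 / 2)) := by
  have h1 : Real.exp (-(1 / 2)) = Real.exp (-2) * Real.exp (3 / 2) := by
    rw [← Real.exp_add]; congr 1; norm_num
  have h2 : (3 : ℝ) ≤ Real.exp (3 / 2) := by
    have e : Real.exp (3 / 2) = Real.exp 1 * Real.exp (1 / 2) := by
      rw [← Real.exp_add]; congr 1; norm_num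
    have h3 : (2.7 : ℝ) ≤ Real.exp 1 := by
      have := Real.exp_one_gt_d9; linarith
    have h4 : (1.5 : ℝ) ≤ Real.exp (1 / 2) := by
      have := Real.add_one_le_exp (1 / 2 : ℝ); linarith
    rw [e]
    nlinarith
  rw [h1]
  have := Real.exp_pos (-2)
  nlinarith

lemma exp_num2 (k : ℕ) (hk : 1 ≤ k) : Real.exp (errE k k / 2) ≤ 2 := by
  have hkr : (1 : ℝ) ≤ k := by exact_mod_cast hk
  have h1 : errE k k ≤ 5 / 4 := by
    rw [errE, div_le_iff₀ (by positivity)]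
    nlinarith
  have h2 : errE k k / 2 ≤ Real.log 2 := by
    have := Real.log_two_gt_d9
    linarith
  calc Real.exp (errE k k / 2) ≤ Real.exp (Real.log 2) := Real.exp_le_exp.mpr h2
    _ = 2 := Real.exp_log (by norm_num)

/-- pure algebra -/
lemma final_algebra (q s D Mr kr c2 γ V E d T : ℝ) (hq : 0 < q) (hs : 0 < s) (hD : 0 < D)
    (hM : 0 < Mr) (hk : 0 ≤ kr) (hc2 : 0 < c2) (hγ : 0 < γ) (hT : 0 < T) (hd : 0 ≤ d)
    (hc2q : c2 ^ q = 2 * T) (hγ2 : γ * γ = q * Real.exp (-1))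
    (hV : 4 * Mr ^ 2 * kr * Real.exp (-2) ≤ V) (hE : E ≤ 2)
    (h : s ^ q * (T * V ^ (q / 2)) ≤ d * (2 * E * (2 * (D * s * (c2 * γ)) * Mr * γ) ^ q)) :
    (Real.sqrt kr / (q * D)) ^ q ≤ 8 * d := by
  obtain ⟨R, hR⟩ : ∃ R, R = 2 * D * Mr * (γ * γ) := ⟨_, rfl⟩
  have hRpos : 0 < R := by rw [hR]; positivity
  have e1 : 2 * (D * s * (c2 * γ)) * Mr * γ = s * (c2 * R) := by rw [hR]; ring
  rw [e1, Real.mul_rpow hs.le (by positivity), Real.mul_rpow hc2.le hRpos.le, hc2q] at h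
  have hsq : 0 < s ^ q := Real.rpow_pos_of_pos hs _
  have hRq : 0 < R ^ q := Real.rpow_pos_of_pos hRpos _
  have h2 : V ^ (q / 2) ≤ 4 * E * d * R ^ q := by
    have h3 : (s ^ q * T) * V ^ (q / 2) ≤ (s ^ q * T) * (4 * E * d * R ^ q) := by
      calc (s ^ q * T) * V ^ (q / 2) = s ^ q * (T * V ^ (q / 2)) := by ring
        _ ≤ d * (2 * E * (s ^ q * (2 * T * R ^ q))) := h
        _ = _ := by ring
    exact le_of_mul_le_mul_left h3 (by positivity)
  obtain ⟨W, hW⟩ : ∃ W, W = Real.sqrt kr / (q * D) := ⟨_, rfl⟩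
  have hW0 : 0 ≤ W := by rw [hW]; positivity
  rw [← hW]
  have hWR : (W * R) ^ 2 ≤ V := by
    have e2 : W * R = 2 * Mr * Real.sqrt kr * Real.exp (-1) := by
      rw [hW, hR, hγ2]; field_simp
    have e3 : Real.exp (-1) ^ 2 = Real.exp (-2) := by
      rw [← Real.exp_nat_mul]; congr 1; norm_num
    rw [e2, mul_pow, mul_pow, mul_pow, Real.sq_sqrt hk, e3]
    linarith
  have h4 : (W * R) ^ q ≤ V ^ (q / 2) := by
    have e4 : (W * R) ^ q = ((W * R) ^ 2) ^ (q / 2) := by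
      rw [← Real.rpow_natCast, ← Real.rpow_mul (by positivity)]
      congr 1; push_cast; ring
    rw [e4]
    exact Real.rpow_le_rpow (by positivity) hWR (by positivity)
  rw [Real.mul_rpow hW0 hRpos.le] at h4
  have h5 : W ^ q * R ^ q ≤ (8 * d) * R ^ q := by
    calc W ^ q * R ^ q ≤ 4 * E * d * R ^ q := h4.trans h2
      _ ≤ 4 * 2 * d * R ^ q := by
          apply mul_le_mul_of_nonneg_right _ hRq.le
          apply mul_le_mul_of_nonneg_right _ hd
          linarith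
      _ = _ := by ring
  exact le_of_mul_le_mul_right h5 hRq

theorem core_lower {p : ℝ≥0∞} [Fact (1 ≤ p)] (hp2 : 2 ≤ p.toReal) (k d : ℕ) (hk : 1 ≤ k)
    (F : (Fin k → ℤ) → PiLp p (fun _ : Fin d => ℝ)) (s D : ℝ) (hs : 0 < s) (hD : 0 < D)
    (hF : ∀ x ∈ box k k, ∀ y ∈ box k k, s * dist (phi p x) (phi p y) ≤ dist (F x) (F y) ∧
      dist (F x) (F y) ≤ D * s * dist (phi p x) (phi p y)) :
    (Real.sqrt k / (p.toReal * D)) ^ p.toReal ≤ 8 * d := by
  have hp0 : 0 < p.toReal := by linarith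
  have hkr : (0 : ℝ) < k := by exact_mod_cast hk
  obtain ⟨c2, hc2⟩ : ∃ c2, c2 = ((2 : ℝ) ^ (k + 1)) ^ (1 / p.toReal) := ⟨_, rfl⟩
  obtain ⟨γ, hγ⟩ : ∃ γ, γ = Real.sqrt p.toReal * Real.exp (-(1 / 2)) := ⟨_, rfl⟩
  have hc2pos : 0 < c2 := by rw [hc2]; positivity
  have hγpos : 0 < γ := by
    rw [hγ]; exact mul_pos (Real.sqrt_pos.mpr hp0) (Real.exp_pos _)
  have hL : 0 < D * s * (c2 * γ) := by positivity
  have hup := upper_sum hp0 k k d hk F (D * s * (c2 * γ)) hL (by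
    intro x hx y hy
    have h1 := (hF x hx y hy).2
    have h2 := phi_dist_le (p := p) hp0 x y
    rw [← hc2, ← hγ] at h2
    calc dist (F x) (F y) ≤ D * s * dist (phi p x) (phi p y) := h1
      _ ≤ D * s * (c2 * γ * Real.sqrt (nsq (x - y))) :=
          mul_le_mul_of_nonneg_left h2 (by positivity)
      _ = _ := by ring)
  have hlo := lower_sum hp2 k k d hk F s hs (fun x hx y hy => (hF x hx y hy).1)
  have hne : (box k k).Nonempty := by
    refine ⟨0, ?_⟩
    rw [mem_box]; intro i; simp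
  have hZ : 0 < ∑ x ∈ box k k, gw k x := Finset.sum_pos (fun c _ => gw_pos k c) hne
  obtain ⟨Z, hZdef⟩ : ∃ Z, Z = ∑ x ∈ box k k, gw k x := ⟨_, rfl⟩
  rw [← hZdef] at hZ hup hlo
  rw [← hγ] at hup
  have h := hlo.trans hup
  have h' : p.toReal = p.toReal := rfl
  have hmain : s ^ p.toReal * (2 ^ k * (4 * (k * cvar k)) ^ (p.toReal / 2))
      ≤ d * (2 * Real.exp (errE k k / 2) * (2 * (D * s * (c2 * γ)) * k * γ) ^ p.toReal) := by
    have h3 : (s ^ p.toReal * (2 ^ k * (4 * (k * cvar k)) ^ (p.toReal / 2))) * Z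
        ≤ (d * (2 * Real.exp (errE k k / 2) * (2 * (D * s * (c2 * γ)) * k * γ) ^ p.toReal)) * Z := by
      calc (s ^ p.toReal * (2 ^ k * (4 * (k * cvar k)) ^ (p.toReal / 2))) * Z
          = s ^ p.toReal * (2 ^ k * ((4 * (k * cvar k)) ^ (p.toReal / 2) * Z)) := by ring
        _ ≤ _ := h
        _ = _ := by ring
    exact le_of_mul_le_mul_right h3 hZ
  apply final_algebra p.toReal s D k k c2 γ (4 * (k * cvar k)) (Real.exp (errE k k / 2)) d (2 ^ k)
    hp0 hs hD hkr hkr.le hc2pos hγpos (by positivity) (Nat.cast_nonneg _)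
  · rw [hc2, ← Real.rpow_mul (by positivity), one_div_mul_cancel hp0.ne', Real.rpow_one]
    ring
  · rw [hγ]
    have e1 : Real.exp (-(1 / 2)) * Real.exp (-(1 / 2)) = Real.exp (-1) := by
      rw [← Real.exp_add]; congr 1; norm_num
    calc Real.sqrt p.toReal * Real.exp (-(1 / 2)) * (Real.sqrt p.toReal * Real.exp (-(1 / 2)))
        = (Real.sqrt p.toReal * Real.sqrt p.toReal) *
            (Real.exp (-(1 / 2)) * Real.exp (-(1 / 2))) := by ring
      _ = _ := by rw [Real.mul_self_sqrt hp0.le, e1]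
  · rw [cvar]
    have := exp_num1
    have h5 : 0 ≤ 4 * (k : ℝ) ^ 2 * k / 3 := by positivity
    nlinarith
  · exact exp_num2 k hk
  · exact hmain

end Vale.Agent.Lib.P249
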