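import Vale.Agent.Lib.P249.LowerMain

/-!
Packaging of the lower bound: exact cardinality, index type `Fin N`, logarithmic form.
-/

namespace Vale.Agent.Lib.P249

open Finset
open scoped ENNReal

lemma card_box_le (k : ℕ) : (box k k).card = (2 * k + 1) ^ k := by
  rw [box, Fintype.card_piFinset]
  simp only [Finset.prod_const, Finset.card_univ, Fintype.card_fin, Int.card_Icc]
  congr 1
  omega

lemma infinite_piLp (p : ℝ≥0∞) (ι : Type*) [Nonempty ι] :
    Infinite (PiLp p (fun _ : ι => ℝ)) := by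
  apply Infinite.of_injective (fun r : ℝ => WithLp.toLp p (fun _ : ι => r))
  intro a b hab
  have h := congrArg (fun v : PiLp p (fun _ : ι => ℝ) => v (Classical.arbitrary ι)) hab
  simpa using h

theorem lower_param (p : ℝ≥0∞) [Fact (1 ≤ p)] (hp2 : 2 ≤ p.toReal) (n k : ℕ)
    (hn : (2 * k + 1) ^ k ≤ n) :
    ∃ X : Finset (PiLp p (fun _ : Fin k → Bool => ℝ)), X.card = n ∧
      ∀ (D s : ℝ) (d : ℕ)
        (f : PiLp p (fun _ : Fin k → Bool => ℝ) → PiLp p (fun _ : Fin d => ℝ)),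
        1 ≤ D → 0 < s →
        (∀ x ∈ X, ∀ y ∈ X,
          s * dist x y ≤ dist (f x) (f y) ∧ dist (f x) (f y) ≤ D * s * dist x y) →
        (Real.sqrt k / (p.toReal * D)) ^ p.toReal ≤ 8 * d := by
  classical
  have hp0 : 0 < p.toReal := by linarith
  have hcard : ((box k k).image (phi p)).card ≤ n :=
    (Finset.card_image_le).trans ((card_box_le k).le.trans hn)
  haveI := infinite_piLp p (Fin k → Bool)
  obtain ⟨X, hsub, hX⟩ := Infinite.exists_superset_card_eq _ n hcard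
  refine ⟨X, hX, ?_⟩
  intro D s d f hD hs hf
  rcases Nat.eq_zero_or_pos k with rfl | hk
  · simp only [Nat.cast_zero, Real.sqrt_zero, zero_div]
    rw [Real.zero_rpow hp0.ne']
    positivity
  · apply core_lower hp2 k d hk (fun x => f (phi p x)) s D hs (by linarith)
    intro x hx y hy
    exact hf _ (hsub (Finset.mem_image_of_mem _ hx)) _ (hsub (Finset.mem_image_of_mem _ hy))

theorem lower_fin (p : ℝ≥0∞) [Fact (1 ≤ p)] (hp2 : 2 ≤ p.toReal) (n k : ℕ)
    (hn : (2 * k + 1) ^ k ≤ n) :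
    ∃ (N : ℕ) (X : Finset (PiLp p (fun _ : Fin N => ℝ))), X.card = n ∧
      ∀ (D s : ℝ) (d : ℕ)
        (f : PiLp p (fun _ : Fin N => ℝ) → PiLp p (fun _ : Fin d => ℝ)),
        1 ≤ D → 0 < s →
        (∀ x ∈ X, ∀ y ∈ X,
          s * dist x y ≤ dist (f x) (f y) ∧ dist (f x) (f y) ≤ D * s * dist x y) →
        (Real.sqrt k / (p.toReal * D)) ^ p.toReal ≤ 8 * d := by
  classical
  obtain ⟨X, hX, h⟩ := lower_param p hp2 n k hn
  obtain ⟨e⟩ : Nonempty (PiLp p (fun _ : Fin k → Bool => ℝ) ≃ₗᵢ[ℝ]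
      PiLp p (fun _ : Fin (Fintype.card (Fin k → Bool)) => ℝ)) :=
    ⟨LinearIsometryEquiv.piLpCongrLeft p ℝ ℝ (Fintype.equivFin (Fin k → Bool))⟩
  refine ⟨Fintype.card (Fin k → Bool), X.image e, ?_, ?_⟩
  · rw [Finset.card_image_of_injective _ e.injective, hX]
  · intro D s d f hD hs hf
    apply h D s d (fun x => f (e x)) hD hs
    intro x hx y hy
    have := hf _ (Finset.mem_image_of_mem _ hx) _ (Finset.mem_image_of_mem _ hy)
    rwa [e.dist_map] at this


lemma floor_pow_le (n : ℕ) (hn : 3 ≤ n) :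
    (2 * ⌊Real.log n / Real.log (2 * Real.log n + 1)⌋₊ + 1) ^
      ⌊Real.log n / Real.log (2 * Real.log n + 1)⌋₊ ≤ n := by
  have hn3 : (3 : ℝ) ≤ n := by exact_mod_cast hn
  have hlog3 : 1 < Real.log 3 := by
    rw [Real.lt_log_iff_exp_lt (by norm_num)]
    have := Real.exp_one_lt_d9
    linarith
  obtain ⟨l, hl⟩ : ∃ l, l = Real.log n := ⟨_, rfl⟩
  have hl1 : 1 < l := by
    rw [hl]
    exact lt_of_lt_of_le hlog3 (Real.log_le_log (by norm_num) hn3)
  rw [← hl]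
  obtain ⟨b, hb⟩ : ∃ b, b = Real.log (2 * l + 1) := ⟨_, rfl⟩
  have hb1 : 1 < b := by
    rw [hb]
    exact lt_of_lt_of_le hlog3 (Real.log_le_log (by norm_num) (by linarith))
  rw [← hb]
  obtain ⟨k, hk⟩ : ∃ k, k = ⌊l / b⌋₊ := ⟨_, rfl⟩
  rw [← hk]
  have hkle : (k : ℝ) ≤ l / b := by
    rw [hk]; exact Nat.floor_le (by positivity)
  have hkb : (k : ℝ) * b ≤ l := by
    rwa [le_div_iff₀ (by linarith)] at hkle
  have hkl : (k : ℝ) ≤ l := by
    have hk0 : (0 : ℝ) ≤ k := Nat.cast_nonneg _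
    nlinarith
  have h1 : Real.log (2 * (k : ℝ) + 1) ≤ b := by
    rw [hb]
    apply Real.log_le_log (by positivity) (by linarith)
  have h2 : Real.log ((2 * (k : ℝ) + 1) ^ k) ≤ Real.log n := by
    rw [Real.log_pow, ← hl]
    have hk0 : (0 : ℝ) ≤ k := Nat.cast_nonneg _
    nlinarith
  have h3 : (2 * (k : ℝ) + 1) ^ k ≤ n :=
    (Real.log_le_log_iff (by positivity) (by linarith)).mp h2
  exact_mod_cast h3

theorem lower_log (p : ℝ≥0∞) [Fact (1 ≤ p)] (hp : p ≠ ∞) (hp2 : 2 ≤ p) (n : ℕ) (hn : 3 ≤ n) :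
    ∃ (N : ℕ) (X : Finset (PiLp p (fun _ : Fin N => ℝ))), X.card = n ∧
      ∀ (D s : ℝ) (d : ℕ)
        (f : PiLp p (fun _ : Fin N => ℝ) → PiLp p (fun _ : Fin d => ℝ)),
        1 ≤ D → 0 < s →
        (∀ x ∈ X, ∀ y ∈ X,
          s * dist x y ≤ dist (f x) (f y) ∧ dist (f x) (f y) ≤ D * s * dist x y) →
        (Real.sqrt (⌊Real.log n / Real.log (2 * Real.log n + 1)⌋₊ : ℝ) / (p.toReal * D)) ^ p.toReal
          ≤ 8 * d := by
  have h2 : 2 ≤ p.toReal := by
    have := ENNReal.toReal_mono hp hp2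
    simpa using this
  exact lower_fin p h2 n _ (floor_pow_le n hn)


lemma floor_ge_half (n : ℕ) (hn : 4 ≤ n) :
    Real.log n / (2 * Real.log (2 * Real.log n + 1))
      ≤ (⌊Real.log n / Real.log (2 * Real.log n + 1)⌋₊ : ℝ) := by
  have hn4 : (4 : ℝ) ≤ n := by exact_mod_cast hn
  have hlog3 : 1 < Real.log 3 := by
    rw [Real.lt_log_iff_exp_lt (by norm_num)]
    have := Real.exp_one_lt_d9
    linarith
  obtain ⟨l, hl⟩ : ∃ l, l = Real.log n := ⟨_, rfl⟩
  have hl1 : 1 < l := by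
    rw [hl]
    exact lt_of_lt_of_le hlog3 (Real.log_le_log (by norm_num) (by linarith))
  have hln : 2 * l + 1 ≤ n := by
    have h4 : Real.log 4 = 2 * Real.log 2 := by
      rw [show (4 : ℝ) = 2 ^ 2 by norm_num, Real.log_pow]; norm_num
    have h5 : Real.log ((n : ℝ) / 4) ≤ (n : ℝ) / 4 - 1 :=
      Real.log_le_sub_one_of_pos (by positivity)
    have h6 : Real.log ((n : ℝ) / 4) = l - Real.log 4 := by
      rw [Real.log_div (by positivity) (by norm_num), hl]
    have := Real.log_two_lt_d9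
    linarith
  rw [← hl]
  obtain ⟨b, hb⟩ : ∃ b, b = Real.log (2 * l + 1) := ⟨_, rfl⟩
  have hb1 : 1 < b := by
    rw [hb]
    exact lt_of_lt_of_le hlog3 (Real.log_le_log (by norm_num) (by linarith))
  have hbl : b ≤ l := by
    have := Real.log_le_log (by linarith) hln
    rw [← hb, ← hl] at this
    exact this
  rw [← hb]
  have hy1 : 1 ≤ l / b := by rw [le_div_iff₀ (by linarith)]; linarith
  have hk1 : 1 ≤ ⌊l / b⌋₊ := Nat.le_floor (by exact_mod_cast hy1)
  have hk1r : (1 : ℝ) ≤ (⌊l / b⌋₊ : ℝ) := by exact_mod_cast hk1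
  have hlt : l / b < (⌊l / b⌋₊ : ℝ) + 1 := Nat.lt_floor_add_one _
  have e : l / (2 * b) = (l / b) / 2 := by field_simp
  rw [e]
  linarith

theorem lower_clean (p : ℝ≥0∞) [Fact (1 ≤ p)] (hp : p ≠ ∞) (hp2 : 2 ≤ p) (n : ℕ) (hn : 4 ≤ n) :
    ∃ (N : ℕ) (X : Finset (PiLp p (fun _ : Fin N => ℝ))), X.card = n ∧
      ∀ (D s : ℝ) (d : ℕ)
        (f : PiLp p (fun _ : Fin N => ℝ) → PiLp p (fun _ : Fin d => ℝ)),
        1 ≤ D → 0 < s →
        (∀ x ∈ X, ∀ y ∈ X,
          s * dist x y ≤ dist (f x) (f y) ∧ dist (f x) (f y) ≤ D * s * dist x y) →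
        (Real.sqrt (Real.log n / (2 * Real.log (2 * Real.log n + 1))) / (p.toReal * D)) ^ p.toReal
          ≤ 8 * d := by
  obtain ⟨N, X, hX, h⟩ := lower_log p hp hp2 n (by omega)
  refine ⟨N, X, hX, ?_⟩
  intro D s d f hD hs hf
  refine le_trans ?_ (h D s d f hD hs hf)
  have h2 : 2 ≤ p.toReal := by
    have := ENNReal.toReal_mono hp hp2
    simpa using this
  apply Real.rpow_le_rpow (by positivity) _ (by linarith)
  apply div_le_div_of_nonneg_right _ (by positivity)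
  exact Real.sqrt_le_sqrt (floor_ge_half n hn)

end Vale.Agent.Lib.P249
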