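import Vale.Agent.Lib.P249.Core

/-!
Numerical estimate of the number of sample points.
-/

namespace Vale.Agent.Lib.P249

/-- the constant in the final bound -/
noncomputable def dimConst (p : ℝ) : ℝ := 72 * (6 : ℝ) ^ p + (2 : ℝ) ^ (p + 1)

lemma ceil_bound {p : ℝ} (hp : 0 < p) {n : ℕ} (hn : 2 ≤ n) {ε : ℝ} (hε0 : 0 < ε) (hε1 : ε ≤ 1) :
    ((⌈4 * Real.log (2 * (n : ℝ) ^ 2) * sensBound p (Nat.log 2 n) n / ε ^ 2⌉₊ : ℕ) : ℝ) ≤
      dimConst p * (1 / ε ^ 2) * n * Real.log n ^ (p + 2) := by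
  have hn2 : (2 : ℝ) ≤ (n : ℝ) := by exact_mod_cast hn
  have hn0 : (0 : ℝ) < (n : ℝ) := by linarith
  obtain ⟨ℓ, hℓ⟩ : ∃ ℓ, ℓ = Real.log n := ⟨_, rfl⟩
  have hlog2 : (0.6931471803 : ℝ) < Real.log 2 := Real.log_two_gt_d9
  have hlog2' : Real.log 2 ≤ ℓ := by
    rw [hℓ]; exact Real.log_le_log (by norm_num) hn2
  have hℓ0 : 0 < ℓ := by linarith
  have hJ : ((Nat.log 2 n : ℕ) : ℝ) ≤ ℓ / Real.log 2 := by
    have := Real.natLog_le_logb n 2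
    rw [Real.logb] at this
    rw [hℓ]
    exact_mod_cast this
  have h1ℓ : 1 ≤ ℓ / Real.log 2 := by
    rw [le_div_iff₀ (by linarith)]; linarith
  have hdiv : ℓ / Real.log 2 ≤ 1.5 * ℓ := by
    rw [div_le_iff₀ (by linarith)]
    nlinarith
  have hJ1 : 2 * (((Nat.log 2 n : ℕ) : ℝ) + 1) ≤ 6 * ℓ := by linarith
  have hpow : (2 * (((Nat.log 2 n : ℕ) : ℝ) + 1)) ^ p ≤ (6 : ℝ) ^ p * ℓ ^ p := by
    rw [← Real.mul_rpow (by norm_num) hℓ0.le]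
    exact Real.rpow_le_rpow (by positivity) hJ1 hp.le
  have h1 : 1 + ℓ ≤ 3 * ℓ := by linarith
  have hL : Real.log (2 * (n : ℝ) ^ 2) ≤ 3 * ℓ := by
    rw [Real.log_mul (by norm_num) (by positivity), Real.log_pow, ← hℓ]
    push_cast
    linarith
  have hL0 : 0 ≤ Real.log (2 * (n : ℝ) ^ 2) := by
    apply Real.log_nonneg
    nlinarith
  have h6 : 0 < (6 : ℝ) ^ p := Real.rpow_pos_of_pos (by norm_num) p
  have hℓp : 0 < ℓ ^ p := Real.rpow_pos_of_pos hℓ0 p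
  have hsens : sensBound p (Nat.log 2 n) n ≤ 2 * ((6 : ℝ) ^ p * ℓ ^ p) * ((n : ℝ) * (3 * ℓ)) := by
    unfold sensBound
    rw [← hℓ]
    apply mul_le_mul
    · linarith
    · exact mul_le_mul_of_nonneg_left h1 hn0.le
    · positivity
    · positivity
  have hsens0 : 0 ≤ sensBound p (Nat.log 2 n) n := by
    unfold sensBound
    rw [← hℓ]
    positivity
  have hℓpow : ℓ ^ (p + 2) = ℓ ^ p * ℓ * ℓ := by
    rw [Real.rpow_add hℓ0, Real.rpow_two]; ring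
  have hmain : 4 * Real.log (2 * (n : ℝ) ^ 2) * sensBound p (Nat.log 2 n) n / ε ^ 2 ≤
      72 * (6 : ℝ) ^ p * (1 / ε ^ 2) * n * ℓ ^ (p + 2) := by
    have hprod : Real.log (2 * (n : ℝ) ^ 2) * sensBound p (Nat.log 2 n) n ≤
        (3 * ℓ) * (2 * ((6 : ℝ) ^ p * ℓ ^ p) * ((n : ℝ) * (3 * ℓ))) :=
      mul_le_mul hL hsens hsens0 (by positivity)
    rw [hℓpow, div_eq_mul_one_div]
    have hε2 : 0 ≤ 1 / ε ^ 2 := by positivity
    calc 4 * Real.log (2 * (n : ℝ) ^ 2) * sensBound p (Nat.log 2 n) n * (1 / ε ^ 2)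
        = 4 * (Real.log (2 * (n : ℝ) ^ 2) * sensBound p (Nat.log 2 n) n) * (1 / ε ^ 2) := by ring
      _ ≤ 4 * ((3 * ℓ) * (2 * ((6 : ℝ) ^ p * ℓ ^ p) * ((n : ℝ) * (3 * ℓ)))) * (1 / ε ^ 2) := by
          apply mul_le_mul_of_nonneg_right _ hε2
          linarith
      _ = 72 * (6 : ℝ) ^ p * (1 / ε ^ 2) * n * (ℓ ^ p * ℓ * ℓ) := by ring
  have hone : 1 ≤ (2 : ℝ) ^ (p + 1) * (1 / ε ^ 2) * n * ℓ ^ (p + 2) := by
    have hε2 : 1 ≤ 1 / ε ^ 2 := by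
      rw [le_div_iff₀ (by positivity)]
      nlinarith
    have hhalf : (1 / 2 : ℝ) ^ (p + 2) ≤ ℓ ^ (p + 2) :=
      Real.rpow_le_rpow (by norm_num) (by linarith) (by linarith)
    have hid : (2 : ℝ) ^ (p + 1) * 2 * (1 / 2 : ℝ) ^ (p + 2) = 1 := by
      have : (2 : ℝ) ^ (p + 1) * 2 = (2 : ℝ) ^ (p + 2) := by
        rw [show p + 2 = (p + 1) + 1 by ring, Real.rpow_add (by norm_num : (0 : ℝ) < 2) (p + 1) 1,
          Real.rpow_one]
      rw [this, ← Real.mul_rpow (by norm_num) (by norm_num)]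
      norm_num
    have h2p : 0 < (2 : ℝ) ^ (p + 1) := Real.rpow_pos_of_pos (by norm_num) _
    calc 1 = (2 : ℝ) ^ (p + 1) * 1 * 2 * (1 / 2 : ℝ) ^ (p + 2) := by rw [mul_one, hid]
      _ ≤ (2 : ℝ) ^ (p + 1) * (1 / ε ^ 2) * n * ℓ ^ (p + 2) := by
          apply mul_le_mul _ hhalf (by positivity) (by positivity)
          apply mul_le_mul _ hn2 (by norm_num) (by positivity)
          exact mul_le_mul_of_nonneg_left hε2 h2p.le
  have hceil := Nat.ceil_lt_add_one (a := 4 * Real.log (2 * (n : ℝ) ^ 2) *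
    sensBound p (Nat.log 2 n) n / ε ^ 2) (by positivity)
  rw [← hℓ]
  unfold dimConst
  calc _ ≤ 4 * Real.log (2 * (n : ℝ) ^ 2) * sensBound p (Nat.log 2 n) n / ε ^ 2 + 1 := hceil.le
    _ ≤ 72 * (6 : ℝ) ^ p * (1 / ε ^ 2) * n * ℓ ^ (p + 2) +
        (2 : ℝ) ^ (p + 1) * (1 / ε ^ 2) * n * ℓ ^ (p + 2) := add_le_add hmain hone
    _ = _ := by ring

end Vale.Agent.Lib.P249
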