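import Vale.Agent.Lib.P249.PLOne

/-!
The discrete Prekopa-Leindler inequality on integer boxes, by induction on the dimension.
-/

namespace Vale.Agent.Lib.P249

open Finset

/-- the integer box `[-M, M]^k` -/
noncomputable def box (k : ℕ) (M : ℤ) : Finset (Fin k → ℤ) := Fintype.piFinset (fun _ => Finset.Icc (-M) M)

lemma mem_box {k : ℕ} {M : ℤ} {x : Fin k → ℤ} : x ∈ box k M ↔ ∀ i, -M ≤ x i ∧ x i ≤ M := by
  simp [box, Fintype.mem_piFinset]

lemma sum_box_succ (k : ℕ) (M : ℤ) (F : (Fin (k + 1) → ℤ) → ℝ) :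
    ∑ x ∈ box (k + 1) M, F x
      = ∑ a ∈ Finset.Icc (-M) M, ∑ y ∈ box k M, F (Fin.cons a y) := by
  rw [← Finset.sum_product']
  apply Finset.sum_nbij' (fun x => (x 0, Fin.tail x)) (fun q => Fin.cons q.1 q.2)
  · intro x hx
    rw [mem_box] at hx
    rw [Finset.mem_product, mem_box, Finset.mem_Icc]
    exact ⟨hx 0, fun i => hx i.succ⟩
  · intro q hq
    rw [Finset.mem_product, mem_box, Finset.mem_Icc] at hq
    rw [mem_box]
    intro i
    refine Fin.cases ?_ (fun j => ?_) i
    · simpa using hq.1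
    · simpa using hq.2 j
  · intro x _
    exact Fin.cons_self_tail x
  · intro q _
    simp
  · intro x _
    simp [Fin.cons_self_tail]

lemma sum_box_zero (M : ℤ) (F : (Fin 0 → ℤ) → ℝ) :
    ∑ x ∈ box 0 M, F x = F (fun i => i.elim0) := by
  have : box 0 M = {fun i => i.elim0} := by
    ext x
    rw [mem_box, Finset.mem_singleton]
    constructor
    · intro _; funext i; exact i.elim0
    · intro _ i; exact i.elim0
  rw [this, Finset.sum_singleton]

lemma Icc_mid (M : ℤ) : ∀ a ∈ Finset.Icc (-M) M, ∀ b ∈ Finset.Icc (-M) M, ∀ c : ℤ,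
    |2 * c - (a + b)| ≤ 1 → c ∈ Finset.Icc (-M) M := by
  intro a ha b hb c hc
  rw [Finset.mem_Icc] at ha hb ⊢
  rw [abs_le] at hc
  constructor <;> omega

/-- discrete Prekopa-Leindler inequality on a box -/
theorem pl_box (M : ℤ) : ∀ (k : ℕ) (f g h : (Fin k → ℤ) → ℝ), (∀ x, 0 ≤ f x) → (∀ x, 0 ≤ g x) →
    (∀ x, 0 ≤ h x) →
    (∀ x ∈ box k M, ∀ y ∈ box k M, ∀ c : Fin k → ℤ, (∀ i, |2 * c i - (x i + y i)| ≤ 1) →
      f x * g y ≤ h c ^ 2) →
    (∑ x ∈ box k M, f x) * (∑ y ∈ box k M, g y) ≤ (∑ c ∈ box k M, h c) ^ 2 := by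
  intro k
  induction k with
  | zero =>
    intro f g h _ _ _ H
    rw [sum_box_zero, sum_box_zero, sum_box_zero]
    apply H
    · rw [mem_box]; intro i; exact i.elim0
    · rw [mem_box]; intro i; exact i.elim0
    · intro i; exact i.elim0
  | succ k ih =>
    intro f g h hf hg hh H
    rw [sum_box_succ, sum_box_succ, sum_box_succ]
    apply pl_one (Finset.Icc (-M) M) (Icc_mid M)
      (fun a => ∑ y ∈ box k M, f (Fin.cons a y)) (fun a => ∑ y ∈ box k M, g (Fin.cons a y))
      (fun a => ∑ y ∈ box k M, h (Fin.cons a y))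
      (fun a => Finset.sum_nonneg fun y _ => hf _) (fun a => Finset.sum_nonneg fun y _ => hg _)
      (fun a => Finset.sum_nonneg fun y _ => hh _)
    intro a ha b hb c hc
    apply ih (fun y => f (Fin.cons a y)) (fun y => g (Fin.cons b y)) (fun y => h (Fin.cons c y))
      (fun y => hf _) (fun y => hg _) (fun y => hh _)
    intro x hx y hy z hz
    apply H
    · rw [mem_box] at hx ⊢
      rw [Finset.mem_Icc] at ha
      intro i
      refine Fin.cases ?_ (fun j => ?_) i
      · simpa using ha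
      · simpa using hx j
    · rw [mem_box] at hy ⊢
      rw [Finset.mem_Icc] at hb
      intro i
      refine Fin.cases ?_ (fun j => ?_) i
      · simpa using hb
      · simpa using hy j
    · intro i
      refine Fin.cases ?_ (fun j => ?_) i
      · simpa using hc
      · simpa using hz j

end Vale.Agent.Lib.P249
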