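import Mathlib

/-!
A one-dimensional discrete Prekopa-Leindler inequality on integer intervals.
-/

namespace Vale.Agent.Lib.P249

open Finset
open scoped Pointwise

/-- counting lemma: floors and ceilings of half-sums -/
lemma card_mid (A B T : Finset ℤ) (hA : A.Nonempty) (hB : B.Nonempty)
    (hT : ∀ a ∈ A, ∀ b ∈ B, ∀ c : ℤ, |2 * c - (a + b)| ≤ 1 → c ∈ T) :
    A.card + B.card ≤ 2 * T.card := by
  classical
  have hcd : A.card + B.card - 1 ≤ (A + B).card :=
    cauchy_davenport_add_of_linearOrder_isCancelAdd hA hB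
  have hSne : (A + B).Nonempty := hA.add hB
  -- T nonempty
  have hTne : T.Nonempty := by
    obtain ⟨a, ha⟩ := hA
    obtain ⟨b, hb⟩ := hB
    refine ⟨(a + b) / 2, hT a ha b hb _ ?_⟩
    rw [abs_le]; constructor <;> omega
  obtain ⟨c0, hc0, hmin⟩ := T.exists_min_image id hTne
  -- injection
  have hinj : (A + B).card ≤ ((T ×ˢ (Finset.univ : Finset Bool)).erase (c0, true)).card := by
    apply Finset.card_le_card_of_injOn (fun s => ((s + 1) / 2, decide (s % 2 = 1)))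
    · intro s hs
      obtain ⟨a, ha, b, hb, rfl⟩ := Finset.mem_add.mp hs
      simp only [Finset.coe_erase, Finset.coe_product, Set.mem_sdiff, Set.mem_prod,
        Finset.mem_coe, Finset.mem_univ, and_true, Set.mem_singleton_iff, Prod.mk.injEq,
        decide_eq_true_eq, not_and]
      constructor
      · apply hT a ha b hb
        rw [abs_le]; constructor <;> omega
      · intro h1 h2
        have h3 : c0 - 1 ∈ T := by
          apply hT a ha b hb
          rw [abs_le]; constructor <;> omega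
        have := hmin _ h3
        simp only [id] at this
        omega
    · intro s _ t _ hst
      simp only [Prod.mk.injEq, decide_eq_decide] at hst
      omega
  rw [Finset.card_erase_of_mem (by simp [hc0]), Finset.card_product] at hinj
  simp only [Finset.card_univ, Fintype.card_bool] at hinj
  have : 1 ≤ A.card := hA.card_pos
  have : 1 ≤ T.card := hTne.card_pos
  omega


/-- layer cake for one value -/
lemma integral_ind (c : ℝ) (hc : 0 ≤ c) :
    ∫ s in (0 : ℝ)..1, (if s ≤ c then (1 : ℝ) else 0) = min c 1 := by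
  have hm0 : 0 ≤ min c 1 := le_min hc zero_le_one
  have hm1 : min c 1 ≤ 1 := min_le_right _ _
  have hanti : Antitone (fun s : ℝ => if s ≤ c then (1 : ℝ) else 0) := by
    intro a b hab
    dsimp only
    split_ifs with h1 h2 h2
    · exact le_refl _
    · exact absurd (hab.trans h1) h2
    · exact zero_le_one
    · exact le_refl _
  have hint : ∀ a b : ℝ, IntervalIntegrable (fun s : ℝ => if s ≤ c then (1 : ℝ) else 0)
      MeasureTheory.volume a b := fun a b => hanti.intervalIntegrable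
  rw [← intervalIntegral.integral_add_adjacent_intervals (hint 0 (min c 1)) (hint (min c 1) 1)]
  have h1 : ∫ s in (0 : ℝ)..(min c 1), (if s ≤ c then (1 : ℝ) else 0)
      = ∫ s in (0 : ℝ)..(min c 1), (1 : ℝ) := by
    apply intervalIntegral.integral_congr_ae
    refine Filter.Eventually.of_forall ?_
    intro s hs
    rw [Set.uIoc_of_le hm0] at hs
    rw [if_pos (hs.2.trans (min_le_left _ _))]
  have h2 : ∫ s in (min c 1)..(1 : ℝ), (if s ≤ c then (1 : ℝ) else 0)
      = ∫ s in (min c 1)..(1 : ℝ), (0 : ℝ) := by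
    apply intervalIntegral.integral_congr_ae
    refine Filter.Eventually.of_forall ?_
    intro s hs
    rw [Set.uIoc_of_le hm1] at hs
    rw [if_neg]
    intro hsc
    have : s ≤ min c 1 := le_min hsc hs.2
    exact absurd hs.1 (not_lt.mpr this)
  rw [h1, h2]
  simp

lemma intervalIntegrable_ind (c : ℝ) :
    IntervalIntegrable (fun s : ℝ => if s ≤ c then (1 : ℝ) else 0) MeasureTheory.volume 0 1 := by
  have hanti : Antitone (fun s : ℝ => if s ≤ c then (1 : ℝ) else 0) := by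
    intro a b hab
    dsimp only
    split_ifs with h1 h2 h2
    · exact le_refl _
    · exact absurd (hab.trans h1) h2
    · exact zero_le_one
    · exact le_refl _
  exact hanti.intervalIntegrable

/-- layer cake for a finite sum -/
lemma integral_sum_ind (I : Finset ℤ) (v : ℤ → ℝ) (hv : ∀ a ∈ I, 0 ≤ v a) :
    ∫ s in (0 : ℝ)..1, (∑ a ∈ I, if s ≤ v a then (1 : ℝ) else 0) = ∑ a ∈ I, min (v a) 1 := by
  rw [intervalIntegral.integral_finsetSum (fun a _ => intervalIntegrable_ind (v a))]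
  exact Finset.sum_congr rfl fun a ha => integral_ind _ (hv a ha)


lemma intervalIntegrable_sum_ind (I : Finset ℤ) (v : ℤ → ℝ) :
    IntervalIntegrable (fun s : ℝ => ∑ a ∈ I, if s ≤ v a then (1 : ℝ) else 0)
      MeasureTheory.volume 0 1 := by
  have := IntervalIntegrable.sum I (fun a _ => intervalIntegrable_ind (v a))
  refine this.congr ?_
  intro s _
  simp [Finset.sum_apply]

/-- normalised additive form -/
lemma pl_one_norm (I : Finset ℤ)
    (hI : ∀ a ∈ I, ∀ b ∈ I, ∀ c : ℤ, |2 * c - (a + b)| ≤ 1 → c ∈ I)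
    (f g h : ℤ → ℝ) (hf : ∀ a, 0 ≤ f a) (hg : ∀ a, 0 ≤ g a) (hh : ∀ a, 0 ≤ h a)
    (hf1 : ∀ a ∈ I, f a ≤ 1) (hg1 : ∀ a ∈ I, g a ≤ 1)
    (a0 b0 : ℤ) (ha0 : a0 ∈ I) (hb0 : b0 ∈ I) (hfa : f a0 = 1) (hgb : g b0 = 1)
    (H : ∀ a ∈ I, ∀ b ∈ I, ∀ c : ℤ, |2 * c - (a + b)| ≤ 1 → f a * g b ≤ h c ^ 2) :
    (∑ a ∈ I, f a) + (∑ b ∈ I, g b) ≤ 2 * ∑ c ∈ I, h c := by
  classical
  have key : ∀ s ∈ Set.Icc (0 : ℝ) 1,
      (∑ a ∈ I, if s ≤ f a then (1 : ℝ) else 0) + (∑ a ∈ I, if s ≤ g a then (1 : ℝ) else 0)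
        ≤ 2 * ∑ a ∈ I, if s ≤ h a then (1 : ℝ) else 0 := by
    intro s hs
    rw [Finset.sum_boole, Finset.sum_boole, Finset.sum_boole]
    have hc := card_mid (I.filter fun a => s ≤ f a) (I.filter fun a => s ≤ g a)
      (I.filter fun a => s ≤ h a)
      ⟨a0, Finset.mem_filter.mpr ⟨ha0, hfa ▸ hs.2⟩⟩ ⟨b0, Finset.mem_filter.mpr ⟨hb0, hgb ▸ hs.2⟩⟩
      (by
        intro a ha b hb c hc
        rw [Finset.mem_filter] at ha hb ⊢
        refine ⟨hI a ha.1 b hb.1 c hc, ?_⟩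
        have h1 := H a ha.1 b hb.1 c hc
        have h2 : s * s ≤ f a * g b := mul_le_mul ha.2 hb.2 hs.1 (hf a)
        by_contra hlt
        rw [not_le] at hlt
        nlinarith [hh c])
    exact_mod_cast hc
  have hint := intervalIntegral.integral_mono_on (zero_le_one' ℝ)
    ((intervalIntegrable_sum_ind I f).add (intervalIntegrable_sum_ind I g))
    ((intervalIntegrable_sum_ind I h).const_mul 2) key
  rw [intervalIntegral.integral_add (intervalIntegrable_sum_ind I f)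
    (intervalIntegrable_sum_ind I g), intervalIntegral.integral_const_mul,
    integral_sum_ind I f (fun a _ => hf a), integral_sum_ind I g (fun a _ => hg a),
    integral_sum_ind I h (fun a _ => hh a)] at hint
  have e1 : ∑ a ∈ I, min (f a) 1 = ∑ a ∈ I, f a :=
    Finset.sum_congr rfl fun a ha => min_eq_left (hf1 a ha)
  have e2 : ∑ a ∈ I, min (g a) 1 = ∑ a ∈ I, g a :=
    Finset.sum_congr rfl fun a ha => min_eq_left (hg1 a ha)
  have e3 : ∑ a ∈ I, min (h a) 1 ≤ ∑ a ∈ I, h a :=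
    Finset.sum_le_sum fun a _ => min_le_left _ _
  rw [e1, e2] at hint
  linarith

/-- one-dimensional discrete Prekopa-Leindler inequality -/
theorem pl_one (I : Finset ℤ)
    (hI : ∀ a ∈ I, ∀ b ∈ I, ∀ c : ℤ, |2 * c - (a + b)| ≤ 1 → c ∈ I)
    (f g h : ℤ → ℝ) (hf : ∀ a, 0 ≤ f a) (hg : ∀ a, 0 ≤ g a) (hh : ∀ a, 0 ≤ h a)
    (H : ∀ a ∈ I, ∀ b ∈ I, ∀ c : ℤ, |2 * c - (a + b)| ≤ 1 → f a * g b ≤ h c ^ 2) :
    (∑ a ∈ I, f a) * (∑ b ∈ I, g b) ≤ (∑ c ∈ I, h c) ^ 2 := by
  classical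
  rcases I.eq_empty_or_nonempty with rfl | hne
  · simp
  obtain ⟨a0, ha0, hmaxf⟩ := I.exists_max_image f hne
  obtain ⟨b0, hb0, hmaxg⟩ := I.exists_max_image g hne
  rcases (hf a0).eq_or_lt with hF0 | hF
  · have : ∑ a ∈ I, f a = 0 :=
      Finset.sum_eq_zero fun a ha => le_antisymm (hF0 ▸ hmaxf a ha) (hf a)
    rw [this, zero_mul]; positivity
  rcases (hg b0).eq_or_lt with hG0 | hG
  · have : ∑ a ∈ I, g a = 0 :=
      Finset.sum_eq_zero fun a ha => le_antisymm (hG0 ▸ hmaxg a ha) (hg a)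
    rw [this, mul_zero]; positivity
  obtain ⟨F, hFdef⟩ : ∃ F, F = f a0 := ⟨_, rfl⟩
  obtain ⟨G, hGdef⟩ : ∃ G, G = g b0 := ⟨_, rfl⟩
  rw [← hFdef] at hF hmaxf
  rw [← hGdef] at hG hmaxg
  have hK : 0 < Real.sqrt (F * G) := Real.sqrt_pos.mpr (mul_pos hF hG)
  have hK2 : Real.sqrt (F * G) ^ 2 = F * G := Real.sq_sqrt (mul_pos hF hG).le
  obtain ⟨K, hKdef⟩ : ∃ K, K = Real.sqrt (F * G) := ⟨_, rfl⟩
  rw [← hKdef] at hK hK2
  have main := pl_one_norm I hI (fun a => f a / F) (fun a => g a / G) (fun a => h a / K)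
    (fun a => div_nonneg (hf a) hF.le) (fun a => div_nonneg (hg a) hG.le)
    (fun a => div_nonneg (hh a) hK.le)
    (fun a ha => (div_le_one hF).mpr (hmaxf a ha)) (fun a ha => (div_le_one hG).mpr (hmaxg a ha))
    a0 b0 ha0 hb0 (by rw [← hFdef]; exact div_self hF.ne') (by rw [← hGdef]; exact div_self hG.ne')
    (by
      intro a ha b hb c hc
      have h1 := H a ha b hb c hc
      rw [div_mul_div_comm, div_pow, hK2]
      exact div_le_div_of_nonneg_right h1 (mul_pos hF hG).le)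
  rw [← Finset.sum_div, ← Finset.sum_div, ← Finset.sum_div] at main
  obtain ⟨Sf, hSf⟩ : ∃ S, S = ∑ a ∈ I, f a := ⟨_, rfl⟩
  obtain ⟨Sg, hSg⟩ : ∃ S, S = ∑ a ∈ I, g a := ⟨_, rfl⟩
  obtain ⟨Sh, hSh⟩ : ∃ S, S = ∑ a ∈ I, h a := ⟨_, rfl⟩
  rw [← hSf, ← hSg, ← hSh] at main ⊢
  have hSf0 : 0 ≤ Sf := hSf ▸ Finset.sum_nonneg fun a _ => hf a
  have hSg0 : 0 ≤ Sg := hSg ▸ Finset.sum_nonneg fun a _ => hg a
  have hSh0 : 0 ≤ Sh := hSh ▸ Finset.sum_nonneg fun a _ => hh a
  have hu : 0 ≤ Sf / F := div_nonneg hSf0 hF.le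
  have hv : 0 ≤ Sg / G := div_nonneg hSg0 hG.le
  have hw : 0 ≤ Sh / K := div_nonneg hSh0 hK.le
  have h4 : (Sf / F) * (Sg / G) ≤ (Sh / K) ^ 2 := by nlinarith [sq_nonneg (Sf / F - Sg / G)]
  rw [div_mul_div_comm, div_pow, hK2] at h4
  exact (div_le_div_iff_of_pos_right (mul_pos hF hG)).mp h4

end Vale.Agent.Lib.P249
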