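import Vale.Agent.Lib.P249.Numeric

/-!
From the weighted sample points to an embedding into `ℓ_p^d`.
-/

namespace Vale.Agent.Lib.P249

open MeasureTheory
open scoped ENNReal

theorem wrap {α : Type*} [MetricSpace α] (X : Finset α) {Ω : Type*} [MeasurableSpace Ω]
    (μ : Measure Ω) (ev : α → Ω → ℝ) (p : ℝ≥0∞) [Fact (1 ≤ p)] (hp : p ≠ ∞)
    (hint : ∀ a b : α, Integrable (fun ω => |ev a ω - ev b ω| ^ p.toReal) μ)
    (hdist : ∀ a b : α, ∫ ω, |ev a ω - ev b ω| ^ p.toReal ∂μ = dist a b ^ p.toReal)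
    {D : ℝ} (hD : 1 < D) (hX : 2 ≤ X.card) :
    ∃ (d : ℕ) (f : α → PiLp p (fun _ : Fin d => ℝ)) (s : ℝ),
      (d : ℝ) ≤ dimConst p.toReal * ((D + 1) / (D - 1)) ^ 2 * X.card *
        Real.log X.card ^ (p.toReal + 2) ∧ 0 < s ∧
      ∀ a ∈ X, ∀ b ∈ X, s * dist a b ≤ dist (f a) (f b) ∧ dist (f a) (f b) ≤ D * s * dist a b := by
  have hp1 : 1 ≤ p.toReal := by
    have h := (Fact.out : 1 ≤ p)
    have := ENNReal.toReal_mono hp h
    simpa using this
  have hp0 : 0 < p.toReal := by linarith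
  obtain ⟨q, hq⟩ : ∃ q, q = p.toReal := ⟨_, rfl⟩
  obtain ⟨ε, hε⟩ : ∃ ε, ε = (D - 1) / (D + 1) := ⟨_, rfl⟩
  have hD1 : 0 < D - 1 := by linarith
  have hD2 : 0 < D + 1 := by linarith
  have hε0 : 0 < ε := by rw [hε]; positivity
  have hε1 : ε < 1 := by
    rw [hε, div_lt_one hD2]; linarith
  have hcardX : Fintype.card {a // a ∈ X} = X.card := Fintype.card_coe X
  obtain ⟨m, hm⟩ : ∃ m : ℕ, m = ⌈4 * Real.log (2 * (X.card : ℝ) ^ 2) *
      sensBound p.toReal (Nat.log 2 X.card) X.card / ε ^ 2⌉₊ := ⟨_, rfl⟩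
  obtain ⟨ω, c, hc, h⟩ := core μ (ι := {a // a ∈ X}) (p := p.toReal) (fun i => ev i.1) hp0
    (fun i j => hint i.1 j.1) (fun i j => hdist i.1 j.1) hε0 hε1.le (Nat.log 2 X.card)
    (by rw [hcardX]; exact Nat.lt_pow_succ_log_self (by norm_num) _)
    (by rw [hcardX]; exact hX) m
    (by rw [hcardX, hm]; exact Nat.le_ceil _)
  refine ⟨m, fun a => WithLp.toLp p (fun l => (c l) ^ (1 / p.toReal) * ev a (ω l)),
    (1 - ε) ^ (1 / p.toReal), ?_, ?_, ?_⟩
  · have := ceil_bound hp0 hX hε0 hε1.le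
    rw [← hm] at this
    have h2 : 1 / ε ^ 2 = ((D + 1) / (D - 1)) ^ 2 := by
      rw [hε]; field_simp
    rwa [h2] at this
  · apply Real.rpow_pos_of_pos; linarith
  · intro a ha b hb
    obtain ⟨hlo, hup⟩ := h ⟨a, ha⟩ ⟨b, hb⟩
    have hdd : dist (⟨a, ha⟩ : {a // a ∈ X}) ⟨b, hb⟩ = dist a b := rfl
    rw [hdd] at hlo hup
    simp only at hlo hup
    have hdist_eq : dist (WithLp.toLp p (fun l => (c l) ^ (1 / p.toReal) * ev a (ω l)))
        (WithLp.toLp p (fun l => (c l) ^ (1 / p.toReal) * ev b (ω l))) =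
        (∑ l, c l * |ev a (ω l) - ev b (ω l)| ^ p.toReal) ^ (1 / p.toReal) := by
      rw [PiLp.dist_eq_sum hp0]
      congr 1
      apply Finset.sum_congr rfl
      intro l _
      simp only [Real.dist_eq]
      rw [← mul_sub, abs_mul, Real.mul_rpow (abs_nonneg _) (abs_nonneg _),
        abs_of_nonneg (Real.rpow_nonneg (hc l) _), ← Real.rpow_mul (hc l)]
      rw [one_div, inv_mul_cancel₀ hp0.ne', Real.rpow_one]
    rw [hdist_eq]
    have hρ : 0 ≤ dist a b := dist_nonneg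
    have hroot : (dist a b ^ p.toReal) ^ (1 / p.toReal) = dist a b := by
      rw [← Real.rpow_mul hρ, one_div, mul_inv_cancel₀ hp0.ne', Real.rpow_one]
    have h1ε : 0 < 1 - ε := by linarith
    have hinv0 : 0 ≤ 1 / p.toReal := by positivity
    constructor
    · calc (1 - ε) ^ (1 / p.toReal) * dist a b
          = ((1 - ε) * dist a b ^ p.toReal) ^ (1 / p.toReal) := by
            rw [Real.mul_rpow h1ε.le (Real.rpow_nonneg hρ _), hroot]
        _ ≤ _ := Real.rpow_le_rpow (by positivity) hlo hinv0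
    · have hDε : 1 + ε = D * (1 - ε) := by
        rw [hε]; field_simp; ring
      have hDroot : D ^ (1 / p.toReal) ≤ D := by
        calc D ^ (1 / p.toReal) ≤ D ^ (1 : ℝ) := by
              apply Real.rpow_le_rpow_of_exponent_le hD.le
              rw [div_le_one hp0]; exact hp1
          _ = D := Real.rpow_one D
      have hsum0 : 0 ≤ ∑ l, c l * |ev a (ω l) - ev b (ω l)| ^ p.toReal :=
        Finset.sum_nonneg fun l _ => mul_nonneg (hc l) (Real.rpow_nonneg (abs_nonneg _) _)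
      calc (∑ l, c l * |ev a (ω l) - ev b (ω l)| ^ p.toReal) ^ (1 / p.toReal)
          ≤ ((1 + ε) * dist a b ^ p.toReal) ^ (1 / p.toReal) :=
            Real.rpow_le_rpow hsum0 hup hinv0
        _ = D ^ (1 / p.toReal) * (1 - ε) ^ (1 / p.toReal) * dist a b := by
            rw [hDε, Real.mul_rpow (by positivity) (Real.rpow_nonneg hρ _), hroot,
              Real.mul_rpow (by linarith) h1ε.le]
        _ ≤ D * (1 - ε) ^ (1 / p.toReal) * dist a b := by
            apply mul_le_mul_of_nonneg_right _ hρ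
            apply mul_le_mul_of_nonneg_right hDroot
            exact Real.rpow_nonneg h1ε.le _

end Vale.Agent.Lib.P249
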